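import Vale.Agent.P231.K.CoordB

/-!
# Coordinates  (TASK)

Take `exists_fam`.  One line: every `u` is fixed by `P_0`, so `B u u = b u u • P_0 = b u u • id` (`Trs.same`).  Otherwise `e : Fin (N + 2) → E`, `F = range P_0`, `μ = mK B (e 0) (e 1)`;
`ι i : F →ₗ E` is the inclusion for `i = 0` and `ph B (e 0) (e i)` otherwise; it is isometric with values in `F_i`.  `χ.symm x = ∑ i, ι i (x i)`; it is bijective (inverse `z ↦ (ι i-inverse of P_i z)`,
use `ph_ph`, or injective by the norm formula and surjective by `∑ P_i z = z`; `LinearEquiv.ofBijective`).  Key: for all `i j`, `b (B (ι i x) (ι j x') v) v = c (μ x' x̄) (μ y_j ȳ_i)` where `v = ∑ ι l y_l`: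
for `i = j` both sides are `|x| |x'|`-type by `Trs.same`, `scr`, `mul_cj`; for `i ≠ j`, `cross_zero`, `cross_mem`, `adj` reduce to `b (ph (ι i x) (ι j x') (ι i y_i)) (ι j y_j)`, computed by `ph_graph`, `ph_three`, `mK_eq`, `brr`
(for `j = 0` exchange `i, j` and use `ip_cj`, `cj_mul`).  For `N ≠ 0` associativity is `mK_assoc` with `e 2`.
Prefix helper names by `coord_c_`.
-/

namespace Vale.Agent.P231

open Real Set

variable {E : Type*} [AddCommGroup E] [Module ℝ E] {b : E →ₗ[ℝ] E →ₗ[ℝ] ℝ}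
  {B : E →ₗ[ℝ] E →ₗ[ℝ] E →ₗ[ℝ] E}

theorem coord_c_abs {K : Type*} [AddCommGroup K] [Module ℝ K] {c : K →ₗ[ℝ] K →ₗ[ℝ] ℝ}
    {μ : K →ₗ[ℝ] K →ₗ[ℝ] K} {o : K} (hc : Comp c μ o) (h : PQ b B) (ht : Trs b B) {n : ℕ}
    {e : Fin n → E} (hf : Fam b B e) (hs : ∀ z, ∑ i, B (e i) (e i) z = z) (i0 : Fin n)
    (ι : Fin n → K →ₗ[ℝ] E) (h1 : ∀ i x, B (e i) (e i) (ι i x) = ι i x)
    (h2 : ∀ i x y, b (ι i x) (ι i y) = c x y) (h4 : ∀ i z, ∃ x, ι i x = B (e i) (e i) z)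
    (h5 : ∀ i j, i ≠ j → j ≠ i0 → ∀ x x' y,
      ph B (ι i x) (ι j x') (ι i y) = ι j (μ (μ x' (cj c o x)) y)) :
    ∃ χ : E ≃ₗ[ℝ] (Fin n → K), Coord b B c μ o χ := by
  have h3 : ∀ i j, i ≠ j → ∀ x, B (e i) (e i) (ι j x) = 0 := by
    intro i j hij x
    rw [← h1 j x]
    exact ht.orth h (hf.unit i) (hf.unit j) (hf.orth i j hij) _
  obtain ⟨Ψ, hΨ⟩ : ∃ Ψ : (Fin n → K) →ₗ[ℝ] E, ∀ y, Ψ y = ∑ i, ι i (y i) :=
    ⟨∑ i, ι i ∘ₗ LinearMap.proj i, fun y => by simp⟩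
  have hP : ∀ i y, B (e i) (e i) (Ψ y) = ι i (y i) := by
    intro i y
    rw [hΨ, map_sum, Finset.sum_eq_single i (fun j _ hj => h3 i j hj.symm _) (by simp), h1]
  have hb : ∀ i w y, B (e i) (e i) w = w → b w (Ψ y) = b w (ι i (y i)) := by
    intro i w y hw
    rw [← hP, ← h.adj, hw]
  have hip : ∀ x y, b (Ψ x) (Ψ y) = ∑ i, c (x i) (y i) := by
    intro x y
    rw [hΨ x, map_sum, LinearMap.sum_apply]
    exact Finset.sum_congr rfl fun i _ => by rw [hb i _ y (h1 i _), h2]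
  have hinj : Function.Injective Ψ := by
    refine (injective_iff_map_eq_zero Ψ).2 fun x hx => funext fun i => ?_
    have e1 := hP i x
    rw [hx, map_zero] at e1
    have e2 := h2 i (x i) (x i)
    rw [← e1, map_zero] at e2
    by_contra hne
    exact (hc.bp _ hne).ne e2
  have hsurj : Function.Surjective Ψ := by
    intro z
    choose x hx using fun i => h4 i z
    exact ⟨x, (hΨ x).trans ((Finset.sum_congr rfl fun i _ => hx i).trans (hs z))⟩
  have key : ∀ i j, i ≠ j → j ≠ i0 → ∀ x x' y, b (B (ι i x) (ι j x') (Ψ y)) (Ψ y) =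
      c (μ x' (cj c o x)) (μ (y j) (cj c o (y i))) := by
    intro i j hij hj x x' y
    have e1 : ph B (ι i x) (ι j x') (Ψ y) =
        ph B (ι i x) (ι j x') (ι i (y i)) + ph B (ι i x) (ι j x') (ι j (y j)) := by
      rw [hΨ, map_sum]
      exact Fintype.sum_eq_add i j hij fun l hl => cross_zero h ht (hf.unit i) (hf.unit j)
        (hf.orth i j hij) (h1 i x) (h1 j x') (h3 i l hl.1.symm _) (h3 j l hl.2.symm _)
    have e2 := cross_mem h ht (hf.unit i) (hf.unit j) (hf.orth i j hij) (h1 i x) (h1 j x')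
      (h1 i (y i))
    have e3 := cross_mem h ht (hf.unit j) (hf.unit i) (hf.orth j i hij.symm) (h1 j x') (h1 i x)
      (h1 j (y j))
    rw [ph_comm h] at e3
    have e4 : b (ph B (ι i x) (ι j x') (Ψ y)) (Ψ y) =
        2 * b (B (ι i x) (ι j x') (Ψ y)) (Ψ y) := by simp [ph]
    rw [e1, map_add, LinearMap.add_apply, hb j _ y e2, hb i _ y e3,
      ph_adj h (ι i x) (ι j x') (ι j (y j)), h.bs (ι j (y j)), h5 i j hij hj, h2, hc.brr] at e4
    linarith
  have all : ∀ i j x x' y, b (B (ι i x) (ι j x') (Ψ y)) (Ψ y) =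
      c (μ x (cj c o x')) (μ (y i) (cj c o (y j))) := by
    intro i j x x' y
    by_cases hij : i = j
    · subst hij
      rw [ht.same h (hf.unit i) (h1 i x) (h1 i x'), LinearMap.smul_apply, map_smul,
        LinearMap.smul_apply, hP, hb i _ y (h1 i _), h2, h2, hc.mul_cj, map_smul, hc.brr, hc.cj_cj,
        hc.one_mul, smul_eq_mul, smul_eq_mul, mul_comm]
    by_cases hi : i = i0
    · rw [key i j hij (fun e => hij (hi.trans e.symm)), ← hc.ip_cj, hc.cj_mul, hc.cj_mul, hc.cj_cj,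
        hc.cj_cj]
    · rw [h.s1, key j i (Ne.symm hij) hi]
  have hχ : ∀ x, (LinearEquiv.ofBijective Ψ ⟨hinj, hsurj⟩).symm (Ψ x) = x := fun x =>
    (LinearEquiv.ofBijective Ψ ⟨hinj, hsurj⟩).symm_apply_apply x
  refine ⟨(LinearEquiv.ofBijective Ψ ⟨hinj, hsurj⟩).symm, fun u v => ?_, fun u v => ?_⟩
  · obtain ⟨x, rfl⟩ := hsurj u
    obtain ⟨y, rfl⟩ := hsurj v
    simp only [hχ, hip]
  · obtain ⟨x, rfl⟩ := hsurj u
    obtain ⟨y, rfl⟩ := hsurj v
    simp only [hχ, ← all]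
    rw [hΨ x]
    simp only [map_sum, LinearMap.sum_apply]
    exact Finset.sum_comm

theorem coord_c_mu (h : PQ b B) (ht : Trs b B) {N : ℕ} {e : Fin (N + 2) → E} (hf : Fam b B e)
    {i : Fin (N + 2)} (hi : i ≠ 0) : mK B (e 0) (e i) = mK B (e 0) (e 1) := by
  by_cases h1 : i = 1
  · rw [h1]
  · exact mK_eq h ht (hf.unit 0) (hf.unit i) (hf.unit 1) (hf.orth 0 i hi.symm)
      (hf.orth 0 1 Fin.zero_ne_one) (hf.orth i 1 h1)

theorem exists_coord [FiniteDimensional ℝ E] [Nontrivial E] (h : PQ b B) (ht : Trs b B) :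
    (∀ u v, b (B u u v) v = b u u * b v v) ∨
    ∃ (F : Submodule ℝ E) (μ : F →ₗ[ℝ] F →ₗ[ℝ] F) (e : F) (N : ℕ) (χ : E ≃ₗ[ℝ] (Fin (N + 2) → F)),
      Comp (bK b F) μ e ∧ Coord b B (bK b F) μ e χ ∧
        (N = 0 ∨ ∀ x y z, μ (μ x y) z = μ x (μ y z)) := by
  obtain ⟨N, e, hf, hs⟩ := exists_fam h ht
  rcases N with _ | N
  · refine Or.inl fun u v => ?_
    replace hs : ∀ z, B (e 0) (e 0) z = z := fun z => by simpa using hs z
    rw [ht.same h (hf.unit 0) (hs u) (hs u), LinearMap.smul_apply, hs, map_smul,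
      LinearMap.smul_apply, smul_eq_mul]
  have u0 := hf.unit 0
  have o0 := fun i (hi : i ≠ 0) => hf.orth 0 i hi.symm
  have hc := comp_mK h ht u0 (hf.unit 1) (o0 1 Fin.zero_ne_one.symm)
  obtain ⟨ι, hι0, hι⟩ : ∃ ι : Fin (N + 2) → LinearMap.range (B (e 0) (e 0)) →ₗ[ℝ] E,
      (∀ x, ι 0 x = x) ∧ ∀ i, i ≠ 0 → ∀ x, ι i x = ph B (e 0) (e i) x :=
    ⟨fun i => if i = 0 then Submodule.subtype _ else ph B (e 0) (e i) ∘ₗ Submodule.subtype _,
      fun x => by simp, fun i hi x => by simp [hi]⟩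
  obtain ⟨χ, hχ⟩ := coord_c_abs hc h ht hf hs 0 ι (fun i x => by
      by_cases hi : i = 0
      · rw [hi, hι0, mem_K h u0]
      · rw [hι i hi, ph_mem h ht u0 (hf.unit i) (o0 i hi)])
    (fun i x y => by
      by_cases hi : i = 0
      · rw [hi, hι0, hι0]
        rfl
      · rw [hι i hi, hι i hi, ph_adj h,
          ph_ph h ht u0 (hf.unit i) (o0 i hi) (Or.inl (mem_K h u0 y))]
        rfl)
    (fun i z => by
      by_cases hi : i = 0
      · exact ⟨⟨_, z, rfl⟩, by rw [hi, hι0]⟩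
      · have e1 : B (e i) (e i) (B (e i) (e i) z) = B (e i) (e i) z := by
          rw [h.s4, hf.unit, one_smul]
        have e2 : ∀ j, B (e j) (e j) (e j) = e j := fun j => by rw [h.s3, hf.unit, one_smul]
        have e3 := cross_mem h ht (hf.unit i) u0 (hf.orth i 0 hi) (e2 i) (e2 0) e1
        rw [ph_comm h] at e3
        exact ⟨⟨_, _, e3⟩, by rw [hι i hi, ph_ph h ht u0 (hf.unit i) (o0 i hi) (Or.inr e1)]⟩)
    (fun i j hij hj x x' y => by
      by_cases hi : i = 0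
      · rw [hi, hι0, hι0, hι j hj, hι j hj, ph_graph h ht u0 (hf.unit j) (o0 j hj),
          coord_c_mu h ht hf hj]
      · rw [hι i hi, hι i hi, hι j hj, hι j hj, ph_three h ht u0 (hf.unit i) (hf.unit j) (o0 i hi)
          (o0 j hj) (hf.orth i j hij), coord_c_mu h ht hf hi])
  refine Or.inr ⟨_, _, _, N, χ, hc, hχ, ?_⟩
  rcases N with _ | N
  · exact Or.inl rfl
  · obtain ⟨k, a1, a2⟩ : ∃ k : Fin (N + 1 + 1 + 1), k ≠ 0 ∧ 1 ≠ k :=
      ⟨⟨2, by omega⟩, by simp [Fin.ext_iff], by simp [Fin.ext_iff]⟩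
    exact Or.inr (mK_assoc h ht u0 (hf.unit 1) (hf.unit k) (o0 1 Fin.zero_ne_one.symm) (o0 k a1)
      (hf.orth 1 k a2))

end Vale.Agent.P231
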