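import Vale.Agent.P231.K.MdPA

/-!
# Projective spaces as models  (TASK)

Put `ψ u i = star (φ.symm (χ u i))`.  From `Hom` and `Comp`: `c (φ x) (φ x) = ‖x‖²`, `x * star x = ‖x‖²` (`mul_cj`, injectivity of `φ`), `μ` is associative.  `∑ ‖ψ u i‖² = b u u`.  With `h = ∑ ψ u i * star (ψ v i)`,
`φ h = ∑ μ (cj x_i) y_i`, `c (φ h) e = b u v` (`brl`), `c (φ h) (φ h) = b (B u u v) v` (`brl`, `brr`, associativity, `Coord.q`), so `‖cos s cos t + sin s sin t • h‖² = FF`.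
`β s u = mk (Fin.cons (cos s) (sin s • ψ u))` for unit `u` (a fixed point otherwise); `proj_mk`, `proj_sep`, `proj_onto`; `κ = 1`.
Prefix helper names by `md_pb_`.
-/

namespace Vale.Agent.P231

open Real Set

variable {E K : Type*} [AddCommGroup E] [Module ℝ E] [AddCommGroup K] [Module ℝ K]
  {b : E →ₗ[ℝ] E →ₗ[ℝ] ℝ} {B : E →ₗ[ℝ] E →ₗ[ℝ] E →ₗ[ℝ] E} {c : K →ₗ[ℝ] K →ₗ[ℝ] ℝ}
  {μ : K →ₗ[ℝ] K →ₗ[ℝ] K} {e : K}
  {A : Type} [NormedDivisionRing A] [StarRing A] [NormedAlgebra ℝ A] [StarModule ℝ A]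

theorem md_pb_nrm (φ : A ≃ₗ[ℝ] K) (hφ : Hom c μ e (· * ·) star 1 pip φ.toLinearMap) (x : A) :
    c (φ x) (φ x) = ‖x‖ ^ 2 := by
  have h := hφ.ip x x
  simp only [LinearEquiv.coe_coe] at h
  have h2 : x + x = (2 : ℝ) • x := (two_smul ℝ x).symm
  rw [h, pip, h2, norm_smul, Real.norm_two]
  ring

theorem md_pb_hA (hc : Comp c μ e) (φ : A ≃ₗ[ℝ] K)
    (hφ : Hom c μ e (· * ·) star 1 pip φ.toLinearMap) (x : A) :
    x * star x = algebraMap ℝ A (‖x‖ ^ 2) := by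
  apply φ.injective
  have h1 := hφ.mul x (star x)
  have h2 := hφ.conj x
  have h3 := hφ.one
  simp only [LinearEquiv.coe_coe] at h1 h2 h3
  rw [h1, h2, hc.mul_cj, md_pb_nrm φ hφ, Algebra.algebraMap_eq_smul_one, map_smul, h3]

theorem md_pb_star (hc : Comp c μ e) (φ : A ≃ₗ[ℝ] K)
    (hφ : Hom c μ e (· * ·) star 1 pip φ.toLinearMap) (x : A) : ‖star x‖ ^ 2 = ‖x‖ ^ 2 := by
  have h2 := hφ.conj x
  simp only [LinearEquiv.coe_coe] at h2
  rw [← md_pb_nrm φ hφ, ← md_pb_nrm φ hφ, h2, hc.ip_cj]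

theorem md_pb_l (hc : Comp c μ e) (φ : A ≃ₗ[ℝ] K)
    (hφ : Hom c μ e (· * ·) star 1 pip φ.toLinearMap) (x y z : A) :
    c (φ (star x * y)) (φ z) = c (φ y) (φ (x * z)) := by
  have h1 := hφ.mul (star x) y
  have h2 := hφ.conj x
  have h3 := hφ.mul x z
  simp only [LinearEquiv.coe_coe] at h1 h2 h3
  rw [h1, h2, h3, hc.brl, hc.cj_cj]

theorem md_pb_r (hc : Comp c μ e) (φ : A ≃ₗ[ℝ] K)
    (hφ : Hom c μ e (· * ·) star 1 pip φ.toLinearMap) (x y z : A) :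
    c (φ (x * y)) (φ z) = c (φ x) (φ (z * star y)) := by
  have h1 := hφ.mul x y
  have h2 := hφ.conj y
  have h3 := hφ.mul z (star y)
  simp only [LinearEquiv.coe_coe] at h1 h2 h3
  rw [h1, h3, h2, hc.brr]

theorem md_pb_ip (hc : Comp c μ e) (φ : A ≃ₗ[ℝ] K)
    (hφ : Hom c μ e (· * ·) star 1 pip φ.toLinearMap) {N : ℕ} {χ : E ≃ₗ[ℝ] (Fin N → K)}
    (hχ : Coord b B c μ e χ) (u v : E) :
    c (φ (∑ i, star (φ.symm (χ u i)) * φ.symm (χ v i))) (φ 1) = b u v := by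
  rw [hχ.ip, map_sum, map_sum, LinearMap.sum_apply]
  refine Finset.sum_congr rfl fun i _ => ?_
  rw [md_pb_l hc φ hφ, mul_one, φ.apply_symm_apply, φ.apply_symm_apply, hc.bs]

theorem md_pb_q (hc : Comp c μ e) (φ : A ≃ₗ[ℝ] K)
    (hφ : Hom c μ e (· * ·) star 1 pip φ.toLinearMap) {N : ℕ} {χ : E ≃ₗ[ℝ] (Fin N → K)}
    (hχ : Coord b B c μ e χ) (u v : E) :
    c (φ (∑ i, star (φ.symm (χ u i)) * φ.symm (χ v i)))
      (φ (∑ i, star (φ.symm (χ u i)) * φ.symm (χ v i))) = b (B u u v) v := by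
  rw [hχ.q, map_sum φ, map_sum c, LinearMap.sum_apply]
  refine Finset.sum_congr rfl fun i _ => ?_
  rw [map_sum]
  refine Finset.sum_congr rfl fun j _ => ?_
  rw [md_pb_l hc φ hφ, ← mul_assoc, hc.bs, md_pb_r hc φ hφ]
  have h1 := hφ.mul (φ.symm (χ u i)) (star (φ.symm (χ u j)))
  have h2 := hφ.mul (φ.symm (χ v i)) (star (φ.symm (χ v j)))
  have h3 := hφ.conj (φ.symm (χ u j))
  have h4 := hφ.conj (φ.symm (χ v j))
  simp only [LinearEquiv.coe_coe, LinearEquiv.apply_symm_apply] at h1 h2 h3 h4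
  rw [h1, h2, h3, h4]

theorem md_pb_unit {n : ℕ} (s : ℝ) (w : Fin n → A) (hw : ∑ i, ‖w i‖ ^ 2 = 1) :
    ∑ i, ‖(Fin.cons (algebraMap ℝ A (cos s)) (sin s • w) : Fin (n + 1) → A) i‖ ^ 2 = 1 := by
  rw [Fin.sum_univ_succ]
  simp only [Fin.cons_zero, Fin.cons_succ, Pi.smul_apply, norm_smul, norm_algebraMap',
    Real.norm_eq_abs, mul_pow, sq_abs]
  rw [← Finset.mul_sum, hw, mul_one, cos_sq_add_sin_sq]

theorem md_pb_ne {n : ℕ} {x : Fin n → A} (hx : ∑ i, ‖x i‖ ^ 2 = 1) : x ≠ 0 := by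
  rintro rfl
  simp at hx

theorem md_pb_sum {n : ℕ} (s t : ℝ) (w z : Fin n → A) :
    ∑ i, (Fin.cons (algebraMap ℝ A (cos s)) (sin s • w) : Fin (n + 1) → A) i *
      star ((Fin.cons (algebraMap ℝ A (cos t)) (sin t • z) : Fin (n + 1) → A) i) =
      (cos s * cos t) • (1 : A) + (sin s * sin t) • ∑ i, w i * star (z i) := by
  rw [Fin.sum_univ_succ]
  simp only [Fin.cons_zero, Fin.cons_succ, Pi.smul_apply, Algebra.algebraMap_eq_smul_one,
    star_smul, star_one, star_trivial, smul_mul_smul_comm, mul_one, Finset.smul_sum]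

theorem mdl_proj (hc : Comp c μ e) (φ : A ≃ₗ[ℝ] K)
    (hφ : Hom c μ e (· * ·) star 1 pip φ.toLinearMap) {N : ℕ} {χ : E ≃ₗ[ℝ] (Fin (N + 1) → K)}
    (hχ : Coord b B c μ e χ) : Mdl b B (projDist A (N + 1)) := by
  classical
  have hA := md_pb_hA hc φ hφ
  have hu : ∀ u : E, ∑ i, ‖star (φ.symm (χ u i))‖ ^ 2 = b u u := by
    intro u
    rw [hχ.ip]
    refine Finset.sum_congr rfl fun i _ => ?_
    rw [md_pb_star hc φ hφ, ← md_pb_nrm φ hφ, φ.apply_symm_apply]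
  have h1 : (fun _ => 1 : Fin (N + 1 + 1) → A) ≠ 0 := fun h => one_ne_zero (congrFun h 0)
  refine ⟨fun x y h => proj_sep hA x y h, 1, one_pos, fun s u =>
    if h : (Fin.cons (algebraMap ℝ A (cos s)) (sin s • fun i => star (φ.symm (χ u i))) :
      Fin (N + 1 + 1) → A) ≠ 0 then Projectivization.mk A _ h else Projectivization.mk A _ h1,
    fun p => ?_, fun s _ t _ u v hu1 hv1 => ?_⟩
  · obtain ⟨s, hs, w, hw, hx, hp⟩ := proj_onto hA p
    have hψ : (fun i => star (φ.symm (χ (χ.symm fun i => φ (star (w i))) i))) = w := by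
      funext i
      rw [χ.apply_symm_apply, φ.symm_apply_apply, star_star]
    refine ⟨s, hs, χ.symm fun i => φ (star (w i)), ?_, ?_⟩
    · rw [← hu, ← hw]
      exact Finset.sum_congr rfl fun i _ => by rw [congrFun hψ i]
    · simp only [hψ]
      rw [dif_pos hx, hp]
  · have a1 := md_pb_unit s (fun i => star (φ.symm (χ u i))) ((hu u).trans hu1)
    have a2 := md_pb_unit t (fun i => star (φ.symm (χ v i))) ((hu v).trans hv1)
    simp only []
    rw [dif_pos (md_pb_ne a1), dif_pos (md_pb_ne a2), proj_mk hA _ _ a1 a2, md_pb_sum, one_mul]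
    simp only [star_star]
    congr 1
    rw [← Real.sqrt_sq (norm_nonneg _)]
    congr 1
    have b1 := md_pb_ip hc φ hφ hχ u v
    have b2 := md_pb_q hc φ hφ hχ u v
    have b3 : c (φ 1) (φ 1) = 1 := by rw [md_pb_nrm φ hφ, norm_one, one_pow]
    rw [← md_pb_nrm φ hφ]
    generalize (∑ i, star (φ.symm (χ u i)) * φ.symm (χ v i)) = h at b1 b2 ⊢
    have b4 : c (φ 1) (φ h) = b u v := by rw [hc.bs, b1]
    simp only [map_add, map_smul, LinearMap.add_apply, LinearMap.smul_apply, smul_eq_mul, b1, b2,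
      b3, b4, FF]
    ring

end Vale.Agent.P231
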