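import Vale.Agent.P231.K.AlgA

/-!
# The sphere model  (TASK)

`LinearMap.BilinForm.exists_orthogonal_basis`, normalised, gives `ψ : E ≃ₗ (Fin n → ℝ)` with `b u v = ∑ ψ u i * ψ v i` (see `par_hc_on` in `G/Par`).  `β s u = (cos 2s, sin 2s • ψ u)` (`Fin.cons`, `WithLp.toLp 2`) for unit `u`
(any point otherwise).  The inner product of `β s u` and `β t v` is `2 FF - 1`, `0 ≤ FF ≤ 1`, and `arccos (2 F - 1) = 2 arccos √F` (`arccos_cos`, `cos_two_mul`); `κ = 2`.
Onto: `s = arccos (x 0) / 2`, `u` the normalised tail (any unit vector if the tail vanishes).  Angle zero between unit vectors means equality (`InnerProductGeometry.inner_eq_mul_norm_iff_angle_eq_zero`, `inner_eq_one_iff_of_norm_eq_one`).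
Prefix helper names by `md_s_`.
-/

namespace Vale.Agent.P231

open Real Set

variable {E : Type*} [AddCommGroup E] [Module ℝ E] {b : E →ₗ[ℝ] E →ₗ[ℝ] ℝ}
  {B : E →ₗ[ℝ] E →ₗ[ℝ] E →ₗ[ℝ] E}

theorem md_s_psi [FiniteDimensional ℝ E] (h : PQ b B) :
    ∃ (n : ℕ) (ψ : E ≃ₗ[ℝ] (Fin n → ℝ)), ∀ u v, b u v = ∑ i, ψ u i * ψ v i := by
  obtain ⟨c, hc⟩ := LinearMap.BilinForm.exists_orthogonal_basis (B := b) ⟨fun x y => h.bs x y⟩
  have hpos : ∀ i, 0 < √(b (c i) (c i)) := fun i => Real.sqrt_pos.2 (h.bp _ (c.ne_zero i))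
  let c' := c.isUnitSMul (w := fun i => (√(b (c i) (c i)))⁻¹) fun i => (inv_pos.2 (hpos i)).ne'.isUnit
  have h1 : ∀ i j, b (c' i) (c' j) = if i = j then 1 else 0 := by
    intro i j
    simp only [c', Module.Basis.isUnitSMul_apply, map_smul, LinearMap.smul_apply, smul_eq_mul]
    split_ifs with e
    · subst e
      have h2 := Real.mul_self_sqrt (h.nonneg (c i))
      have h3 := (hpos i).ne'
      field_simp
      linarith
    · have h2 : b (c i) (c j) = 0 := hc e
      rw [h2, mul_zero, mul_zero]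
  refine ⟨_, c'.equivFun, fun u v => ?_⟩
  conv_lhs => rw [← c'.sum_equivFun u, ← c'.sum_equivFun v]
  simp only [map_sum, map_smul, LinearMap.sum_apply, LinearMap.smul_apply, smul_eq_mul, h1, mul_ite,
    mul_one, mul_zero, Finset.sum_ite_eq', Finset.mem_univ, if_true]
  exact Finset.sum_congr rfl fun i _ => mul_comm _ _

/-- The point with polar coordinates `(s, y)`. -/
noncomputable def md_s_pt {n : ℕ} (s : ℝ) (y : Fin n → ℝ) : EuclideanSpace ℝ (Fin (n + 1)) :=
  WithLp.toLp 2 (Fin.cons (cos (2 * s)) fun i => sin (2 * s) * y i)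

theorem md_s_inner {n : ℕ} (s t : ℝ) (y z : Fin n → ℝ) : inner ℝ (md_s_pt s y) (md_s_pt t z) =
    cos (2 * s) * cos (2 * t) + sin (2 * s) * sin (2 * t) * ∑ i, y i * z i := by
  simp only [md_s_pt, PiLp.inner_apply, Fin.sum_univ_succ, Fin.cons_zero, Fin.cons_succ,
    RCLike.inner_apply, conj_trivial, Finset.mul_sum]
  congr 1
  · ring
  · exact Finset.sum_congr rfl fun i _ => by ring

theorem md_s_mem {n : ℕ} (s : ℝ) {y : Fin n → ℝ} (hy : ∑ i, y i * y i = 1 ∨ s = 0) :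
    md_s_pt s y ∈ Metric.sphere (0 : EuclideanSpace ℝ (Fin (n + 1))) 1 := by
  rw [mem_sphere_zero_iff_norm, ← sq_eq_sq₀ (norm_nonneg _) zero_le_one,
    ← real_inner_self_eq_norm_sq, md_s_inner]
  rcases hy with hy | rfl
  · rw [hy]
    linarith [cos_sq_add_sin_sq (2 * s)]
  · simp

theorem md_s_arc {F : ℝ} (h : |2 * F - 1| ≤ 1) : arccos (2 * F - 1) = 2 * arccos √F := by
  obtain ⟨h0, h1⟩ := abs_le.1 h
  have h2 : √F ≤ 1 := sqrt_le_one.2 (by linarith)
  have h3 : cos (2 * arccos √F) = 2 * F - 1 := by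
    rw [cos_two_mul, cos_arccos (by linarith [sqrt_nonneg F]) h2, sq_sqrt (by linarith)]
  rw [← h3, arccos_cos (by linarith [arccos_nonneg √F])
    (by linarith [arccos_le_pi_div_two.2 (sqrt_nonneg F)])]

theorem mdl_sphere [FiniteDimensional ℝ E] [Nontrivial E] (h : PQ b B)
    (hL : ∀ u v, b (B u u v) v = b u u * b v v) : ∃ n, Mdl b B (sphereDist n) := by
  obtain ⟨n, ψ, hψ⟩ := md_s_psi h
  classical
  refine ⟨n, fun x y e => ?_, 2, two_pos, fun s u => if hu : b u u = 1 then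
    ⟨md_s_pt s (ψ u), md_s_mem s (Or.inl ((hψ u u).symm.trans hu))⟩
    else ⟨md_s_pt 0 (ψ u), md_s_mem 0 (Or.inr rfl)⟩, fun x => ?_, fun s _ t _ u v hu hv => ?_⟩
  · have hx := mem_sphere_zero_iff_norm.1 x.2
    have hy := mem_sphere_zero_iff_norm.1 y.2
    have h1 := (InnerProductGeometry.inner_eq_mul_norm_iff_angle_eq_zero
      (norm_ne_zero_iff.1 (hx.trans_ne one_ne_zero))
      (norm_ne_zero_iff.1 (hy.trans_ne one_ne_zero))).2 e
    rw [hx, hy, one_mul] at h1
    exact Subtype.ext ((inner_eq_one_iff_of_norm_eq_one hx hy).1 h1)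
  · have hx : x.1 0 ^ 2 + ∑ i : Fin n, x.1 i.succ * x.1 i.succ = 1 := by
      have h1 := EuclideanSpace.real_norm_sq_eq x.1
      rw [mem_sphere_zero_iff_norm.1 x.2, Fin.sum_univ_succ] at h1
      simpa only [sq, mul_one] using h1.symm
    obtain ⟨c, v, hc, hv, e⟩ : ∃ (c : ℝ) (v : E), 0 ≤ c ∧ b v v = 1 ∧
        ψ.symm (fun i => x.1 i.succ) = c • v := by
      by_cases h0 : ψ.symm (fun i => x.1 i.succ) = 0
      · obtain ⟨w, hw⟩ := exists_ne (0 : E)
        obtain ⟨-, v, -, hv, -⟩ := h.exists_unit hw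
        exact ⟨0, v, le_rfl, hv, by rw [h0, zero_smul]⟩
      · obtain ⟨c, v, hc, hv, e⟩ := h.exists_unit h0
        exact ⟨c, v, hc.le, hv, e⟩
    have e1 : ∀ i : Fin n, x.1 i.succ = c * ψ v i := fun i => by
      have := congrFun (congrArg ψ e) i
      simpa using this
    have e2 : 1 - x.1 0 ^ 2 = c ^ 2 := by
      simp only [e1, mul_mul_mul_comm c, ← Finset.mul_sum, ← hψ, hv] at hx
      linarith
    have e3 : |x.1 0| ≤ 1 := (sq_le_one_iff_abs_le_one _).1 (by linarith [sq_nonneg c])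
    have e4 : 2 * (arccos (x.1 0) / 2) = arccos (x.1 0) := by ring
    refine ⟨arccos (x.1 0) / 2, ⟨by linarith [arccos_nonneg (x.1 0)],
      by linarith [arccos_le_pi (x.1 0)]⟩, v, hv, ?_⟩
    simp only [dif_pos hv]
    refine Subtype.ext (PiLp.ext fun i => ?_)
    simp only [md_s_pt, e4, cos_arccos (abs_le.1 e3).1 (abs_le.1 e3).2, sin_arccos, e2, sqrt_sq hc]
    refine Fin.cases ?_ (fun i => ?_) i
    · simp only [Fin.cons_zero]
    · simp only [Fin.cons_succ, e1]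
  · simp only [dif_pos hu, dif_pos hv, sphereDist, InnerProductGeometry.angle]
    have h1 := mem_sphere_zero_iff_norm.1 (md_s_mem s (Or.inl ((hψ u u).symm.trans hu)))
    have h2 := mem_sphere_zero_iff_norm.1 (md_s_mem t (Or.inl ((hψ v v).symm.trans hv)))
    have h3 := abs_real_inner_le_norm (md_s_pt s (ψ u)) (md_s_pt t (ψ v))
    have h4 : inner ℝ (md_s_pt s (ψ u)) (md_s_pt t (ψ v)) =
        2 * FF s t (b u v) (b (B u u v) v) - 1 := by
      rw [md_s_inner, ← hψ, hL, hu, hv, FF, cos_two_mul, cos_two_mul, sin_two_mul, sin_two_mul,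
        sin_sq, sin_sq]
      ring
    rw [h1, h2, one_mul, h4] at h3
    rw [h1, h2, one_mul, div_one, h4, md_s_arc h3]

end Vale.Agent.P231
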