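import Vale.Agent.P231.K.MdOA
import Vale.Agent.P231.K.MdP
import Vale.Agent.P231.K.MdS
import Vale.Agent.P231.K.Coord

/-!
# The Cayley plane as a model; the classification  (TASK)

`mdl_cayley`: `β s u = ver s (φ.symm (χ u 0)) (φ.symm (χ u 1))` for unit `u`.  `∑ i j, oip (ver ..) (ver ..) = FF` by `Fin.sum_univ_three`, bilinearity, `Hom.ip`, `Hom.mul`, `Hom.conj`, `Coord.ip`, `Coord.q`
(`Fin.sum_univ_two`), `mul_one`, `one_mul`, `ip_cj`.  `classify`: `exists_coord`, `hurwitz`; in the octonionic case `N = 0` by `oct_not_assoc`.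
Prefix helper names by `md_ob_`.
-/

namespace Vale.Agent.P231

open Real Set Quaternion

variable {E K : Type*} [AddCommGroup E] [Module ℝ E] [AddCommGroup K] [Module ℝ K]
  {b : E →ₗ[ℝ] E →ₗ[ℝ] ℝ} {B : E →ₗ[ℝ] E →ₗ[ℝ] E →ₗ[ℝ] E} {c : K →ₗ[ℝ] K →ₗ[ℝ] ℝ}
  {μ : K →ₗ[ℝ] K →ₗ[ℝ] K} {e : K}

theorem md_ob_cj (t : ℝ) (x : K) : cj c e (t • x) = t • cj c e x := by
  simp only [cj, map_smul, LinearMap.smul_apply, smul_eq_mul, smul_sub, smul_smul]
  congr 2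
  ring

theorem md_ob_ver {φ : Oct →ₗ[ℝ] K} (hφ : Hom c μ e omul oconj (1, 0) oip φ) (s : ℝ) (x y : Oct)
    (i j : Fin 3) : φ (ver s x y i j) = μ (![cos s • e, sin s • φ x, sin s • φ y] i)
      (cj c e (![cos s • e, sin s • φ x, sin s • φ y] j)) := by
  have h : ∀ i : Fin 3, φ (![(cos s • (1, 0) : Oct), sin s • x, sin s • y] i) =
      ![cos s • e, sin s • φ x, sin s • φ y] i := by
    intro i
    fin_cases i
    · change φ (cos s • (1, 0)) = cos s • e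
      rw [map_smul, hφ.one]
    · exact map_smul φ _ _
    · exact map_smul φ _ _
  rw [ver, hφ.mul, hφ.conj, h, h]

theorem md_ob_sum (hc : Comp c μ e) (s t : ℝ) (x y x' y' : K) :
    ∑ i, ∑ j, c (μ (![cos s • e, sin s • x, sin s • y] i)
      (cj c e (![cos s • e, sin s • x, sin s • y] j))) (μ (![cos t • e, sin t • x', sin t • y'] i)
      (cj c e (![cos t • e, sin t • x', sin t • y'] j))) =
    FF s t (c x x' + c y y') (c (μ x (cj c e x)) (μ x' (cj c e x')) +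
      c (μ x (cj c e y)) (μ x' (cj c e y')) + (c (μ y (cj c e x)) (μ y' (cj c e x')) +
      c (μ y (cj c e y)) (μ y' (cj c e y')))) := by
  simp only [Fin.sum_univ_three, Matrix.cons_val_zero, Matrix.cons_val_one, Matrix.cons_val_two,
    Matrix.head_cons, Matrix.tail_cons, md_ob_cj, map_smul, LinearMap.smul_apply, smul_eq_mul,
    hc.cj_one, hc.mul_one, hc.one_mul, hc.ip_cj, hc.one, FF]
  ring

theorem mdl_cayley (hc : Comp c μ e) (φ : Oct ≃ₗ[ℝ] K)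
    (hφ : Hom c μ e omul oconj (1, 0) oip φ.toLinearMap) {χ : E ≃ₗ[ℝ] (Fin 2 → K)}
    (hχ : Coord b B c μ e χ) : Mdl b B cayleyDist := by
  have hip : ∀ a a' : Oct, oip a a' = c (φ a) (φ a') := fun a a' => (hφ.ip a a').symm
  have hu : ∀ u, b u u = 1 → oip (φ.symm (χ u 0)) (φ.symm (χ u 0)) +
      oip (φ.symm (χ u 1)) (φ.symm (χ u 1)) = 1 := by
    intro u h
    rw [hip, hip, φ.apply_symm_apply, φ.apply_symm_apply, ← h, hχ.ip, Fin.sum_univ_two]
  have h0 : oip ((1, 0) : Oct) (1, 0) + oip (0 : Oct) 0 = 1 := by simp [oip, omul, oconj]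
  have hβ : ∀ (s : ℝ) (u : E), ∃ X : Cayley, b u u = 1 →
      X.1 = ver s (φ.symm (χ u 0)) (φ.symm (χ u 1)) := by
    intro s u
    by_cases h : b u u = 1
    · exact ⟨⟨_, ver_mem s (hu u h)⟩, fun _ => rfl⟩
    · exact ⟨⟨_, ver_mem s h0⟩, fun h' => absurd h' h⟩
  choose β hβ using hβ
  refine ⟨cayley_sep, 1, one_pos, β, fun X => ?_, fun s _ t _ u v h h' => ?_⟩
  · obtain ⟨s, hs, x, y, hxy, e⟩ := cayley_onto X
    have h1 : b (χ.symm ![φ x, φ y]) (χ.symm ![φ x, φ y]) = 1 := by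
      rw [hχ.ip, Fin.sum_univ_two, χ.apply_symm_apply, ← hxy, hip, hip]
      rfl
    refine ⟨s, hs, χ.symm ![φ x, φ y], h1, Subtype.ext ?_⟩
    simp only [hβ s _ h1, χ.apply_symm_apply, Matrix.cons_val_zero, Matrix.cons_val_one,
      φ.symm_apply_apply, e]
  · simp only [cayleyDist, hβ s u h, hβ t v h', one_mul]
    congr 2
    have h2 : ∀ (r : ℝ) (w : E) (i j : Fin 3), φ (ver r (φ.symm (χ w 0)) (φ.symm (χ w 1)) i j) =
        μ (![cos r • e, sin r • χ w 0, sin r • χ w 1] i)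
          (cj c e (![cos r • e, sin r • χ w 0, sin r • χ w 1] j)) := by
      intro r w i j
      have := md_ob_ver hφ r (φ.symm (χ w 0)) (φ.symm (χ w 1)) i j
      simpa only [LinearEquiv.coe_coe, φ.apply_symm_apply] using this
    simp only [hip, h2]
    rw [md_ob_sum hc, hχ.ip, hχ.q]
    simp only [Fin.sum_univ_two]

theorem classify [FiniteDimensional ℝ E] [Nontrivial E] (h : PQ b B) (ht : Trs b B) :
    (∃ n, Mdl b B (sphereDist n)) ∨ (∃ n, Mdl b B (projDist ℝ n)) ∨ (∃ n, Mdl b B (projDist ℂ n)) ∨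
      (∃ n, Mdl b B (projDist ℍ[ℝ] n)) ∨ Mdl b B cayleyDist := by
  rcases exists_coord h ht with hL | ⟨F, μ, e, N, χ, hc, hχ, hN⟩
  · exact Or.inl (mdl_sphere h hL)
  rcases hurwitz hc with ⟨φ, hφ⟩ | ⟨φ, hφ⟩ | ⟨φ, hφ⟩ | ⟨φ, hφ⟩
  · exact Or.inr (Or.inl ⟨_, mdl_proj hc φ hφ hχ⟩)
  · exact Or.inr (Or.inr (Or.inl ⟨_, mdl_proj hc φ hφ hχ⟩))
  · have : StarModule ℝ ℍ[ℝ] := ⟨fun r q => by ext <;> simp⟩
    exact Or.inr (Or.inr (Or.inr (Or.inl ⟨_, mdl_proj hc φ hφ hχ⟩)))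
  · rcases hN with rfl | hN
    · exact Or.inr (Or.inr (Or.inr (Or.inr (mdl_cayley hc φ hφ hχ))))
    · refine absurd (fun x y z => φ.injective ?_) oct_not_assoc
      have hm : ∀ x y, φ (omul x y) = μ (φ x) (φ y) := hφ.mul
      rw [hm, hm, hm, hm, hN]

end Vale.Agent.P231
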