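import Vale.Agent.P231.K.GeoD
import Vale.Agent.P231.K.MdO

/-!
# Assembly  (TASK)

`trs_of`: at `s = t = π/2` the formula reads `cos² rr = L(u, v)`, so `L = 1` means `geo p u (π/2) = geo p v (π/2)` (`0 ≤ rr ≤ π/2`).
`glue`: every point is `geo p u s` with `s ∈ Icc 0 (π/2)`, `u` unit; `rdist = (2D/π) arccos √FF = (2D/(π κ)) d (β s u) (β t v)`; choose `(s, u)` for each point, the resulting map is injective and surjective because both distances separate points.
Prefix helper names by `fin_`.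
-/

namespace Vale.Agent.P231

open scoped ContDiff Manifold ENNReal Topology
open Vale.Agent.P255 Vale.Agent.P234 Set Filter Real

variable {E M : Type*} [NormedAddCommGroup E] [NormedSpace ℝ E] [FiniteDimensional ℝ E]
  [TopologicalSpace M] [ChartedSpace E M] [IsManifold 𝓘(ℝ, E) ∞ M] [T2Space M] [CompactSpace M]
  [ConnectedSpace M] {g : Metric E M} {m k : ℕ} {D : ℝ}

theorem fin_sep {x y : M} (h0 : rdist g x y = 0) : x = y := by
  obtain ⟨h1, h2⟩ := lg_spec g x y
  rw [nrm_eq_zero g (h2.trans h0), Metric.exp_zero] at h1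
  exact h1

theorem fin_rr (h : Bl g D) {x y : M} {F : ℝ} (hF : cos (rr g D x y) ^ 2 = F) :
    rdist g x y = 2 * D / π * arccos √F := by
  have hD := h.pos
  have h0 : 0 ≤ rr g D x y := mul_nonneg (by positivity) (rdist_nonneg g x y)
  have h1 : rr g D x y ≤ π / 2 := by
    have := mul_le_mul_of_nonneg_left (h.le x y) (show 0 ≤ π / (2 * D) by positivity)
    refine this.trans (le_of_eq ?_)
    field_simp
  rw [← hF, sqrt_sq (cos_nonneg_of_mem_Icc ⟨by linarith [pi_pos], h1⟩),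
    arccos_cos h0 (by linarith [pi_pos]), rr]
  field_simp

theorem fin_polar (h : Bl g D) (hE : Module.finrank ℝ E = m + 1) (p x : M) :
    ∃ s ∈ Icc 0 (π / 2), ∃ u, nrm g p u = 2 * D / π ∧ g.geo p u s = x := by
  have hD := h.pos
  obtain ⟨h1, h2⟩ := lg_spec g p x
  have hs : ∀ w : E, w ≠ 0 → 0 < nrm g p w ∧
      nrm g p ((π / (2 * D) * nrm g p w)⁻¹ • w) = 2 * D / π := fun w hw => by
    have : 0 < nrm g p w :=
      lt_of_le_of_ne (nrm_nonneg g p w) fun e => hw (nrm_eq_zero g e.symm)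
    refine ⟨this, ?_⟩
    rw [nrm_smul, abs_of_pos (by positivity)]
    field_simp
  by_cases hw : lg g p x = 0
  · have : Nontrivial E := Module.nontrivial_of_finrank_pos (R := ℝ) (by omega)
    obtain ⟨w, hw0⟩ := exists_ne (0 : E)
    refine ⟨0, ⟨le_rfl, by positivity⟩, _, (hs w hw0).2, ?_⟩
    rw [hw, Metric.exp_zero] at h1
    rw [Metric.geo_zero, h1]
  · obtain ⟨h3, h4⟩ := hs _ hw
    refine ⟨π / (2 * D) * nrm g p (lg g p x), ⟨by positivity, ?_⟩, _, h4, ?_⟩
    · have := mul_le_mul_of_nonneg_left (h.le p x) (show 0 ≤ π / (2 * D) by positivity)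
      rw [h2]
      refine this.trans (le_of_eq ?_)
      field_simp
    · rw [← Metric.exp_smul, smul_inv_smul₀ (by positivity), h1]

theorem trs_of (h : Bl g D) (hP : Per g D) (hR : Rig g D m) (hE : Module.finrank ℝ E = m + 1)
    {p : M} {B : E →ₗ[ℝ] E →ₗ[ℝ] E →ₗ[ℝ] E} (hB : ∀ u z, B u u z = pu g D p u z) :
    Trs (nb g D p) B := by
  intro u v w hu hv hw huv huw
  have hD := h.pos
  have hI : π / 2 ∈ Icc 0 (π / 2) := ⟨by positivity, le_rfl⟩
  have key : ∀ a b : E, nb g D p a a = 1 → nb g D p b b = 1 →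
      cos (rr g D (g.geo p a (π / 2)) (g.geo p b (π / 2))) ^ 2 = nb g D p (B a a b) b :=
    fun a b ha hb => by
      rw [dist_formula h hP hR hE ((nb_unit hD).1 ha) ((nb_unit hD).1 hb) hI, hB]
      simp [FF]
  have eq : ∀ b : E, nb g D p b b = 1 → nb g D p (B u u b) b = 1 →
      g.geo p u (π / 2) = g.geo p b (π / 2) := fun b hb hub => by
    refine fin_sep (g := g) ?_
    rw [fin_rr h ((key u b hu hb).trans hub)]
    simp
  rw [← key v w hv hw, ← eq v hv huv, ← eq w hw huw, rr, rdist_self]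
  simp

theorem glue (h : Bl g D) (hP : Per g D) (hR : Rig g D m) (hE : Module.finrank ℝ E = m + 1)
    {p : M} {B : E →ₗ[ℝ] E →ₗ[ℝ] E →ₗ[ℝ] E} (hB : ∀ u z, B u u z = pu g D p u z) {X : Type}
    {d : X → X → ℝ} (hd : Mdl (nb g D p) B d) : IsoTo g d := by
  obtain ⟨hsep, κ, hκ, β, hsurj, hdist⟩ := hd
  have hD := h.pos
  have hc : 0 < 2 * D / (π * κ) := by positivity
  have key : ∀ s ∈ Icc 0 (π / 2), ∀ t ∈ Icc 0 (π / 2), ∀ u v, nrm g p u = 2 * D / π →
      nrm g p v = 2 * D / π →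
      rdist g (g.geo p u s) (g.geo p v t) = 2 * D / (π * κ) * d (β s u) (β t v) :=
    fun s hs t ht u v hu hv => by
      rw [fin_rr h (dist_formula h hP hR hE hu hv hs t),
        hdist s hs t ht u v ((nb_unit hD).2 hu) ((nb_unit hD).2 hv), hB]
      field_simp
  choose s hs u hu hx using fin_polar h hE p
  have iso : ∀ x y, rdist g x y = 2 * D / (π * κ) * d (β (s x) (u x)) (β (s y) (u y)) :=
    fun x y => by rw [← key _ (hs x) _ (hs y) _ _ (hu x) (hu y), hx, hx]
  refine ⟨_, hc, Equiv.ofBijective (fun x => β (s x) (u x)) ⟨fun x y hxy => ?_, fun z => ?_⟩, iso⟩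
  · refine fin_sep (g := g) ?_
    have e : β (s x) (u x) = β (s y) (u y) := hxy
    rw [iso, ← e, ← iso, rdist_self]
  · obtain ⟨t, ht, v, hv, rfl⟩ := hsurj z
    refine ⟨g.geo p v t, hsep _ _ ?_⟩
    have := key _ (hs (g.geo p v t)) t ht _ v (hu (g.geo p v t)) ((nb_unit hD).1 hv)
    rw [hx, rdist_self] at this
    exact (mul_eq_zero.1 this.symm).resolve_left hc.ne'

theorem isCROSS_of (h : Bl g D) (hP : Per g D) (hR : Rig g D m)
    (hE : Module.finrank ℝ E = m + 1) : IsCROSS g := by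
  obtain ⟨p⟩ : Nonempty M := inferInstance
  haveI : Nontrivial E := Module.nontrivial_of_finrank_pos (R := ℝ) (by omega)
  obtain ⟨B, hq, hB⟩ := hR.pq h.pos hE p
  rcases classify hq (trs_of h hP hR hE hB) with ⟨n, H⟩ | ⟨n, H⟩ | ⟨n, H⟩ | ⟨n, H⟩ | H
  · exact Or.inl ⟨n, glue h hP hR hE hB H⟩
  · exact Or.inr (Or.inl ⟨n, glue h hP hR hE hB H⟩)
  · exact Or.inr (Or.inr (Or.inl ⟨n, glue h hP hR hE hB H⟩))
  · exact Or.inr (Or.inr (Or.inr (Or.inl ⟨n, glue h hP hR hE hB H⟩)))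
  · exact Or.inr (Or.inr (Or.inr (Or.inr (glue h hP hR hE hB H))))

end Vale.Agent.P231
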