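import Vale.Agent.P231.K.Defs

/-!
# Polarised identities  (TASK)

Everything is polarisation.  `pair`: `Φ(u,w;z,y) = b (B u w z) y` is symmetric in `(u,w)` (`s1`) and in `(z,y)` (polarise `sa` in `u`); polarise `sw` in both variables.
`self`: coefficient of `ε` in `s3 (v + ε u)` (use `ε = 1, -1` and `s3 u`).  `pol`: coefficient of `ε` in `s4 (u + ε w)` (use `ε = 1, -1, 2, -2`; `linear_combination (exp := 1)` in modules,
or apply `ext` first and use `linarith`).  `cross`: pair `pol u v v` with `v`, use `adj`, `self`, `sw`, `s3`.  `fix_iff`: `b (v - P v) (v - P v) = 1 - b (P v) v`.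
Prefix helper names by `alg_a_`.
-/

namespace Vale.Agent.P231

open Real Set

variable {E : Type*} [AddCommGroup E] [Module ℝ E] {b : E →ₗ[ℝ] E →ₗ[ℝ] ℝ}
  {B : E →ₗ[ℝ] E →ₗ[ℝ] E →ₗ[ℝ] E}

theorem PQ.nonneg (h : PQ b B) (u : E) : 0 ≤ b u u := by
  rcases eq_or_ne u 0 with rfl | hu
  · simp
  · exact (h.bp u hu).le

theorem PQ.eq_zero (h : PQ b B) {u : E} (hu : b u u = 0) : u = 0 := by
  by_contra hn
  exact (h.bp u hn).ne' hu

theorem PQ.ext (h : PQ b B) {x y : E} (hxy : ∀ z, b x z = b y z) : x = y := by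
  refine sub_eq_zero.1 (h.eq_zero ?_)
  rw [map_sub b, LinearMap.sub_apply, hxy, sub_self]

theorem alg_a_sa (h : PQ b B) (u w z y : E) : b (B u w z) y = b (B u w y) z := by
  have h1 := h.sa (u + w) z y
  simp only [map_add, LinearMap.add_apply, h.s1 w u] at h1
  linarith [h.sa u z y, h.sa w z y]

theorem PQ.pair (h : PQ b B) (u w z y : E) : b (B u w z) y = b (B z y u) w := by
  have h1 : ∀ z, b (B u w z) z = b (B z z u) w := fun z => by
    have h2 := h.sw (u + w) z
    simp only [map_add, LinearMap.add_apply, h.s1 w u] at h2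
    linarith [h.sw u z, h.sw w z, h.sa z w u]
  have h2 := h1 (z + y)
  simp only [map_add, LinearMap.add_apply, h.s1 y z] at h2
  linarith [h1 z, h1 y, alg_a_sa h u w z y]

theorem PQ.adj (h : PQ b B) (u w z y : E) : b (B u w z) y = b z (B u w y) := by
  rw [alg_a_sa h, h.bs]

theorem PQ.self (h : PQ b B) (u v : E) :
    (2 : ℝ) • B u v v = (2 * b u v) • v + b v v • u - B v v u := by
  have h1 := h.s3 (v + u)
  have h2 := h.s3 (v - u)
  simp only [map_add, map_sub, LinearMap.add_apply, LinearMap.sub_apply, h.s1 v u,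
    h.bs v u] at h1 h2
  linear_combination (norm := module) (1 / 2 : ℝ) • h1 - (1 / 2 : ℝ) • h2 - h.s3 u

theorem PQ.pol (h : PQ b B) (u w z : E) :
    B u w (B u u z) + B u u (B u w z) = b u w • B u u z + b u u • B u w z := by
  have h1 := fun c : ℝ => h.s4 (u + c • w) z
  simp only [map_add, map_smul, LinearMap.add_apply, LinearMap.smul_apply, h.s1 w u, h.bs w u,
    smul_eq_mul] at h1
  linear_combination (norm := module) (1 / 3 : ℝ) • h1 1 - (1 / 3 : ℝ) • h1 (-1) -
    (1 / 24 : ℝ) • h1 2 + (1 / 24 : ℝ) • h1 (-2)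

theorem PQ.cross (h : PQ b B) (u v : E) : b (B u u v) (B v v u) = b u v * b (B u u v) v := by
  have h1 := congrArg (fun x => b x v) (h.pol u v v)
  have h2 := congrArg (b (B u u v)) (h.self u v)
  have h3 : b (B u u v) u = b u u * b u v := by
    rw [h.adj, h.s3, map_smul, smul_eq_mul, h.bs v u]
  have h4 : b (B u v v) v = b v v * b u v := by
    rw [h.pair, h.adj, h.s3, map_smul, smul_eq_mul]
  simp only [map_add, map_sub, map_smul, LinearMap.add_apply, LinearMap.smul_apply,
    smul_eq_mul] at h1 h2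
  rw [h.adj u v (B u u v), h.adj u u (B u v v), h.bs (B u v v) (B u u v), h4] at h1
  rw [h3] at h2
  linear_combination h2 - h1

theorem PQ.sq (h : PQ b B) (u v : E) : b (B u u v) (B u u v) = b u u * b (B u u v) v := by
  rw [← h.adj, h.s4, map_smul, LinearMap.smul_apply, smul_eq_mul]

theorem PQ.fix_iff (h : PQ b B) {u v : E} (hu : b u u = 1) (hv : b v v = 1) :
    b (B u u v) v = 1 ↔ B u u v = v := by
  refine ⟨fun h1 => sub_eq_zero.1 (h.eq_zero ?_), fun h1 => by rw [h1, hv]⟩
  simp only [map_sub, LinearMap.sub_apply]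
  rw [h.sq, h.bs v (B u u v), hu, hv, h1]
  norm_num

theorem PQ.orth_symm (h : PQ b B) {e f : E} (hf : b f f = 1) (hef : B e e f = 0) :
    B f f e = 0 := by
  refine h.eq_zero ?_
  rw [h.sq, h.sw, hef]
  simp

theorem PQ.exists_unit (h : PQ b B) {u : E} (hu : u ≠ 0) :
    ∃ (c : ℝ) (v : E), 0 < c ∧ b v v = 1 ∧ u = c • v := by
  have h1 := h.bp u hu
  have h2 := Real.sqrt_pos.2 h1
  refine ⟨√(b u u), (√(b u u))⁻¹ • u, h2, ?_, (smul_inv_smul₀ h2.ne' u).symm⟩
  simp only [map_smul, LinearMap.smul_apply, smul_eq_mul]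
  rw [← mul_assoc, ← mul_inv, Real.mul_self_sqrt h1.le, inv_mul_cancel₀ h1.ne']

end Vale.Agent.P231
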