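import Vale.Agent.P231.K.Rig
import Vale.Agent.P231.K.AlgA
import Vale.Agent.P231.G.Ray

/-!
# The curvature tensor at a point  (TASK)

`rig_of`: repeat the proof of `ray_h2` for the given frame and call `ode_rig`.  `pu_cmb`: `rop (cmb t z a) = cmb t (R z) 0` (`Fr.expand`, `riem_pair`, `riem_skew`, linearity by `comp_ha_riem`), `nb (vel) (vel) = 1`, `nb vel (cmb z a) = a` (`ip_cmb`).
`Rig.pq`: `B u w z = (1/6) • (riem z u w + riem z w u) + (2/3) • (nb u z • w + nb w z • u) - (1/3 * nb u w) • z` (`LinearMap.mk₂`, `comp_ha_riem`); `sa` by `riem_pair`, `sw` by `comp_ha_skew` and antisymmetry of `riem` in the first pair,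
`s3` from `riem u u u = 0`, `s4` for unit `u` from `pu_cmb` at time `0` (`exists_frame`, `Fr.expand`), in general by scaling.
Prefix helper names by `geo_a_`.
-/

namespace Vale.Agent.P231

open scoped ContDiff Manifold ENNReal Topology
open Vale.Agent.P255 Vale.Agent.P234 Set Filter Real Matrix

variable {E M : Type*} [NormedAddCommGroup E] [NormedSpace ℝ E] [FiniteDimensional ℝ E]
  [TopologicalSpace M] [ChartedSpace E M] [IsManifold 𝓘(ℝ, E) ∞ M] [T2Space M] [CompactSpace M]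
  [ConnectedSpace M] {g : Metric E M} {m k : ℕ} {D : ℝ}

/-- The normalised inner product. -/
noncomputable def nb (g : Metric E M) (D : ℝ) (x : M) : E →ₗ[ℝ] E →ₗ[ℝ] ℝ :=
  LinearMap.mk₂ ℝ (fun u w => (π / (2 * D)) ^ 2 * g.ip x u w) (fun _ _ _ => by simp [mul_add])
    (fun _ _ _ => by simp [mul_left_comm]) (fun _ _ _ => by simp [mul_add])
    (fun _ _ _ => by simp [mul_left_comm])

/-- The projector defined by the curvature. -/
noncomputable def pu (g : Metric E M) (D : ℝ) (x : M) (u z : E) : E :=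
  (1 / 3 : ℝ) • riem (g.g (chartAt E x)) (chartAt E x x) z u u + (4 / 3 * nb g D x u z) • u -
    (1 / 3 * nb g D x u u) • z

/-- The curvature matrix along every geodesic is `1 + 3 Q`. -/
def Rig (g : Metric E M) (D : ℝ) (m : ℕ) : Prop :=
  ∀ x v, nrm g x v = 2 * D / π → ∀ X : Fin m → ℝ → E, Fr g (g.geo x v) X → ∃ Q : Mat m,
    Qᵀ = Q ∧ Q * Q = Q ∧ ∀ s ∈ Ioo (-(π / 2)) (π / 2), rmat g (g.geo x v) X s = 1 + (3 : ℝ) • Q

theorem nb_apply (x : M) (u w : E) : nb g D x u w = (π / (2 * D)) ^ 2 * g.ip x u w := rfl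

theorem nb_unit (hD : 0 < D) {x : M} {v : E} : nb g D x v v = 1 ↔ nrm g x v = 2 * D / π := by
  have hπ := pi_pos
  rw [nb_apply, ← nrm_sq]
  constructor
  · intro h
    have h1 : nrm g x v ^ 2 = (2 * D / π) ^ 2 := by
      field_simp at h ⊢
      linarith
    exact (pow_left_inj₀ (nrm_nonneg g x v) (by positivity) two_ne_zero).1 h1
  · intro h
    rw [h]
    field_simp

theorem sqrt_nb (hD : 0 < D) (x : M) (v : E) : √(nb g D x v v) = π / (2 * D) * nrm g x v := by
  have hπ := pi_pos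
  rw [nb_apply, ← nrm_sq, ← mul_pow]
  exact Real.sqrt_sq (mul_nonneg (by positivity) (nrm_nonneg g x v))

theorem rig_of (h : Bl g D) (hP : Per g D) (hE : Module.finrank ℝ E = m + 1) (hk : Nul g D k)
    (he : ∀ x v, nrm g x v = 2 * D / π → ∀ τ ∈ Ioo 0 (π / 2), avJ g x v τ ≤ π * mdl m k τ) :
    Rig g D m := by
  intro x v hv X hX
  have hD := h.pos
  have hπ := pi_pos
  have h0 : v ≠ 0 := fun e => by
    rw [e, nrm_zero] at hv
    exact (by positivity : 0 < 2 * D / π).ne hv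
  obtain ⟨C, S, C1, S1, hS⟩ := hX.exists_sys hE h0
  obtain ⟨P, hp⟩ := hX.exists_sper hE hD hP hv hS
  have hT : Tv C S (π / 2) := fun t s h1 h2 hd => by
    have p : 0 < t - s := sub_pos.2 h1
    have e := hX.jac_eq hE h0 hS s p.ne'
    rw [add_sub_cancel, hd, abs_zero, zero_div] at e
    refine (h.jac_pos ?_).ne' e
    rw [nrm_smul, nrm_vel_geo, hv, abs_of_pos p, ← mul_div_assoc, div_lt_iff₀ hπ]
    nlinarith
  have hn : nul (S (π / 2)) ≤ k := (ray_h1 hX hE h0 hS (by positivity)).trans (hk x _ (by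
    rw [nrm_smul, hv, abs_of_pos (by positivity)]
    field_simp))
  have e1 : ∀ τ ∈ Ioo 0 (π / 2),
      avJ g x v τ = (∫ s in (0 : ℝ)..π, |(pr C S (s + τ) s).det|) / τ ^ m := fun τ hτ => by
    rw [avJ, ← intervalIntegral.integral_div]
    simp only [hX.jac_eq hE h0 hS _ hτ.1.ne', abs_of_pos hτ.1]
  have e2 : ∀ τ, π * mdl m k τ = π * (sin τ ^ m * cos τ ^ k) / τ ^ m := fun τ => by
    rw [mdl, div_pow]
    ring
  refine ode_rig hS hp hT hn fun τ hτ => ?_
  have := he x v hv τ hτ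
  rwa [e1 τ hτ, e2, div_le_div_iff_of_pos_right (pow_pos hτ.1 m)] at this

theorem geo_a_T (g : Metric E M) (x : M) : ∃ T : E →ₗ[ℝ] E →ₗ[ℝ] E →ₗ[ℝ] E,
    (∀ u v w, riem (g.g (chartAt E x)) (chartAt E x x) u v w = T u v w) ∧
      ∀ u v w, T u v w = -T v u w := by
  have h := g.loc (chart_mem_atlas E x)
  have hy := mem_chart_target E x
  simp only [comp_ha_riem h hy]
  generalize fderiv ℝ (chrL (g.g (chartAt E x))) (chartAt E x x) = A
  generalize chrL (g.g (chartAt E x)) (chartAt E x x) = Γ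
  refine ⟨LinearMap.mk₂ ℝ (fun u v =>
    ((A u v - A v u + (Γ u).comp (Γ v) - (Γ v).comp (Γ u) : E →L[ℝ] E) : E →ₗ[ℝ] E))
    (fun a b c => ?_) (fun a b c => ?_) (fun a b c => ?_) (fun a b c => ?_), fun u v w => rfl,
    fun u v w => ?_⟩
  · ext w
    simp
    abel
  · ext w
    simp
    module
  · ext w
    simp
    abel
  · ext w
    simp
    module
  · simp
    abel

theorem geo_a_B {E : Type*} [AddCommGroup E] [Module ℝ E] (b : E →ₗ[ℝ] E →ₗ[ℝ] ℝ)
    (T : E →ₗ[ℝ] E →ₗ[ℝ] E →ₗ[ℝ] E) : ∃ B : E →ₗ[ℝ] E →ₗ[ℝ] E →ₗ[ℝ] E, ∀ u w z, B u w z =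
      (1 / 6 : ℝ) • (T z u w + T z w u) + (2 / 3 : ℝ) • (b u z • w + b w z • u) -
        (1 / 3 * b u w) • z := by
  refine ⟨LinearMap.mk₂ ℝ (fun u w => (1 / 6 : ℝ) • ((T.flip u).flip w + (T.flip w).flip u) +
    (2 / 3 : ℝ) • ((b u).smulRight w + (b w).smulRight u) - (1 / 3 * b u w) • LinearMap.id)
    (fun a b c => ?_) (fun a b c => ?_) (fun a b c => ?_) (fun a b c => ?_), fun u v w => rfl⟩
  all_goals
    ext z
    simp
    module

theorem pu_cmb (hD : 0 < D) (hE : Module.finrank ℝ E = m + 1) {x : M} {v : E}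
    (hv : nrm g x v = 2 * D / π) {X : Fin m → ℝ → E} (hX : Fr g (g.geo x v) X) {Q : Mat m} {t : ℝ}
    (hR : rmat g (g.geo x v) X t = 1 + (3 : ℝ) • Q) (z : Fin m → ℝ) (a : ℝ) :
    pu g D (g.geo x v t) (vel E (g.geo x v) t) (cmb (g.geo x v) X t z a) =
      cmb (g.geo x v) X t (Q *ᵥ z) a := by
  have hπ := pi_pos
  have h0 : v ≠ 0 := fun e => by
    rw [e, nrm_zero] at hv
    exact (by positivity : 0 < 2 * D / π).ne hv
  have hvv : (π / (2 * D)) ^ 2 * g.ip x v v = 1 := (nb_unit hD).2 hv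
  have e2 : vel E (g.geo x v) t = cmb (g.geo x v) X t 0 1 := by simp [cmb]
  have n1 : nb g D (g.geo x v t) (vel E (g.geo x v) t) (vel E (g.geo x v) t) = 1 := by
    rw [nb_apply, g.geo_speed, hvv]
  have n2 : nb g D (g.geo x v t) (vel E (g.geo x v) t) (cmb (g.geo x v) X t z a) = a := by
    rw [nb_apply, e2, hX.ip_cmb, zero_dotProduct]
    linear_combination a * hvv
  obtain ⟨T, hT, hA⟩ := geo_a_T g (g.geo x v t)
  have hz : ∀ u w, T u u w = 0 := fun u w => by
    have := hA u u w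
    linear_combination (norm := module) (1 / 2 : ℝ) • this
  have r1 : rop g (g.geo x v) t (cmb (g.geo x v) X t z a) =
      cmb (g.geo x v) X t (rmat g (g.geo x v) X t *ᵥ z) 0 := by
    rw [hX.expand hE h0 t (rop g (g.geo x v) t (cmb (g.geo x v) X t z a))]
    congr 1
    · funext i
      simp only [rop, rmat, hT, cmb, map_add, map_sum, map_smul, LinearMap.add_apply,
        LinearMap.smul_apply, LinearMap.sum_apply, hz, smul_zero, add_zero, _root_.sum_apply,
        _root_.smul_apply, smul_eq_mul, mulVec, dotProduct, of_apply]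
      exact Finset.sum_congr rfl fun j _ => mul_comm _ _
    · rw [div_eq_zero_iff]
      exact Or.inl ((g.loc (chart_mem_atlas E _)).riem_skew (mem_chart_target E _) _ _ _)
  rw [pu, n1, n2]
  change (1 / 3 : ℝ) • rop g (g.geo x v) t (cmb (g.geo x v) X t z a) + _ - _ = _
  rw [r1, hR, add_mulVec, one_mulVec, smul_mulVec]
  simp only [cmb, Pi.add_apply, Pi.smul_apply, add_smul, Finset.sum_add_distrib, smul_eq_mul,
    mul_smul, ← Finset.smul_sum]
  module

theorem Rig.pq (hR : Rig g D m) (hD : 0 < D) (hE : Module.finrank ℝ E = m + 1) (x : M) :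
    ∃ B : E →ₗ[ℝ] E →ₗ[ℝ] E →ₗ[ℝ] E, PQ (nb g D x) B ∧ ∀ u z, B u u z = pu g D x u z := by
  obtain ⟨T, hT, hA⟩ := geo_a_T g x
  obtain ⟨B, hB⟩ := geo_a_B (nb g D x) T
  have hπ := pi_pos
  have hl := g.loc (chart_mem_atlas E x)
  have hy := mem_chart_target E x
  have bs : ∀ u w, nb g D x u w = nb g D x w u := fun u w => by rw [nb_apply, nb_apply, ip_symm]
  have bp : ∀ u, u ≠ 0 → 0 < nb g D x u u := fun u hu =>
    mul_pos (by positivity) (ip_pos g x u hu)
  have hpu : ∀ u z, B u u z = pu g D x u z := fun u z => by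
    rw [hB, pu, hT]
    module
  have hz : ∀ u w, T u u w = 0 := fun u w => by
    have := hA u u w
    linear_combination (norm := module) (1 / 2 : ℝ) • this
  have hb : ∀ u z y, nb g D x (B u u z) y = 1 / 3 * nb g D x (T z u u) y +
      4 / 3 * nb g D x u z * nb g D x u y - 1 / 3 * nb g D x u u * nb g D x z y := fun u z y => by
    rw [hB]
    simp only [map_add, map_sub, map_smul, LinearMap.add_apply, LinearMap.sub_apply,
      LinearMap.smul_apply, smul_eq_mul]
    ring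
  have p1 : ∀ u z y, nb g D x (T z u u) y = nb g D x (T y u u) z := fun u z y => by
    rw [nb_apply, nb_apply, ← hT, ← hT]
    exact congrArg _ (riem_pair hl hy z y u)
  have p2 : ∀ u z, nb g D x (T z u u) z = nb g D x (T u z z) u := fun u z => by
    rw [hA z u u, map_neg, LinearMap.neg_apply, nb_apply, nb_apply, ← hT, ← hT, ← mul_neg]
    refine congrArg _ ?_
    have := comp_ha_skew hl hy u z u z
    change g.ip x _ _ = -g.ip x _ _ at this
    linarith
  have s4 : ∀ v z, nb g D x v v = 1 → B v v (B v v z) = B v v z := fun v z hv => by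
    have hv' := (nb_unit hD).1 hv
    have h0 : v ≠ 0 := fun e => by simp [e] at hv
    obtain ⟨X, hX⟩ := exists_frame g hE x h0
    obtain ⟨Q, -, hQ, hq⟩ := hR x v hv' X hX
    have key := pu_cmb hD hE hv' hX (hq 0 ⟨by linarith, by linarith⟩)
    rw [vel_geo_zero, g.geo_zero] at key
    obtain ⟨z', a, rfl⟩ : ∃ z' a, z = cmb (g.geo x v) X 0 z' a := ⟨_, _, hX.expand hE h0 0 z⟩
    rw [hpu, hpu, key, key, mulVec_mulVec, hQ]
  refine ⟨B, ⟨bs, bp, fun u w => ?_, fun u z y => ?_, fun u z => ?_, fun u => ?_,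
    fun u z => ?_⟩, hpu⟩
  · ext z
    rw [hB, hB, bs u w]
    module
  · rw [hb, hb, p1 u z y, bs z y]
    ring
  · rw [hb, hb, p2 u z, bs z u]
    ring
  · rw [hB, hz]
    module
  · rcases eq_or_ne u 0 with rfl | hu
    · simp
    have hc : 0 < √(nb g D x u u) := Real.sqrt_pos.2 (bp u hu)
    have hc2 : √(nb g D x u u) * √(nb g D x u u) = nb g D x u u := Real.mul_self_sqrt (bp u hu).le
    generalize √(nb g D x u u) = c at hc hc2
    obtain ⟨v, rfl⟩ : ∃ v, u = c • v := ⟨c⁻¹ • u, (smul_inv_smul₀ hc.ne' u).symm⟩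
    have hv : nb g D x v v = 1 := by
      simp only [map_smul, LinearMap.smul_apply, smul_eq_mul] at hc2
      refine mul_left_cancel₀ (mul_pos hc hc).ne' ?_
      linarith
    simp only [map_smul, LinearMap.smul_apply, smul_eq_mul, s4 v z hv, hv]
    module

end Vale.Agent.P231
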