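import Vale.Agent.P231.K.RicA
import Vale.Agent.P231.K.GeoA
import Vale.Agent.P231.StmtD

/-!
Rigidity under the lower Ricci bound of the model.
-/

namespace Vale.Agent.P231

open scoped ContDiff Manifold ENNReal Topology
open Vale.Agent.P255 Vale.Agent.P234 Set Filter Real Matrix

variable {E M : Type*} [NormedAddCommGroup E] [NormedSpace ℝ E] [FiniteDimensional ℝ E]
  [TopologicalSpace M] [ChartedSpace E M] [IsManifold 𝓘(ℝ, E) ∞ M] [T2Space M] [CompactSpace M]
  [ConnectedSpace M] {g : Metric E M} {m k : ℕ} {D : ℝ}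

theorem ric_eq {x : M} {v : E} {X : Fin m → ℝ → E} (hX : Fr g (g.geo x v) X)
    (hE : Module.finrank ℝ E = m + 1) (h0 : v ≠ 0) (t : ℝ) :
    ric g (g.geo x v t) (vel E (g.geo x v) t) = (rmat g (g.geo x v) X t).trace := by
  obtain ⟨T, hT, -⟩ := geo_a_T g (g.geo x v t)
  let L : E →ₗ[ℝ] E := (T.flip (vel E (g.geo x v) t)).flip (vel E (g.geo x v) t)
  have hL : ∀ z, L z = rop g (g.geo x v) t z := fun z => (hT _ _ _).symm
  have e1 : ric g (g.geo x v t) (vel E (g.geo x v) t) = LinearMap.trace ℝ E L := by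
    rw [LinearMap.trace_eq_matrix_trace ℝ (Module.finBasis ℝ E), ric, Matrix.trace]
    simp only [diag_apply, LinearMap.toMatrix_apply, hL, rop]
  have e2 : L = ∑ i, LinearMap.smulRight
      ((((g.ip (g.geo x v t)).flip (X i t) : E →L[ℝ] ℝ) : E →ₗ[ℝ] ℝ) ∘ₗ L) (X i t) := by
    ext z
    have := hX.expand hE h0 t (L z)
    have e3 : g.ip (g.geo x v t) (L z) (vel E (g.geo x v) t) = 0 := by
      rw [hL]
      exact (g.loc (chart_mem_atlas E _)).riem_skew (mem_chart_target E _) _ _ _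
    rw [e3, zero_div, cmb, zero_smul, add_zero] at this
    simpa using this
  rw [e1, e2, map_sum, Matrix.trace]
  refine Finset.sum_congr rfl fun i _ => ?_
  rw [LinearMap.trace_smulRight]
  simp [rmat, hL]

theorem rig_of_ric (h : Bl g D) (hP : Per g D) (hE : Module.finrank ℝ E = m + 1) (hk : Nul g D k)
    (hc : RicGe g ((m + 3 * k) * (π / (2 * D)) ^ 2)) : Rig g D m := by
  intro x v hv X hX
  have hD := h.pos
  have hπ := pi_pos
  have h0 : v ≠ 0 := fun e => by
    rw [e, nrm_zero] at hv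
    exact (by positivity : 0 < 2 * D / π).ne hv
  obtain ⟨C, S, C1, S1, hS⟩ := hX.exists_sys hE h0
  obtain ⟨P, hp⟩ := hX.exists_sper hE hD hP hv hS
  have hT : Tv C S (π / 2) := fun t s h1 h2 hd => by
    have p : 0 < t - s := sub_pos.2 h1
    have e := hX.jac_eq hE h0 hS s p.ne'
    rw [add_sub_cancel, hd, abs_zero, zero_div] at e
    refine (h.jac_pos ?_).ne' e
    rw [nrm_smul, nrm_vel_geo, hv, abs_of_pos p, ← mul_div_assoc, div_lt_iff₀ hπ]
    nlinarith
  have hn : nul (S (π / 2)) ≤ k := (ray_h1 hX hE h0 hS (by positivity)).trans (hk x _ (by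
    rw [nrm_smul, hv, abs_of_pos (by positivity)]
    field_simp))
  refine ric_rig hS hp hT hn fun t => ?_
  have h1 := hc (g.geo x v t) (vel E (g.geo x v) t)
  have hvv : (π / (2 * D)) ^ 2 * g.ip x v v = 1 := (nb_unit hD).2 hv
  rwa [ric_eq hX hE h0, ipr_eq, g.geo_speed, mul_assoc, hvv, mul_one] at h1

end Vale.Agent.P231
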