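import Vale.Agent.P231.K.AlgA

/-!
# The lines form a spread  (TASK)

`Trs.same`: for unit `a` fixed by `P_e = B e e`: every unit `z` fixed by `P_e` is fixed by `P_a` (`Trs`, `fix_iff`), and conversely (`sw` gives `P_a e = e`); scale (`exists_unit`), so
`P_a P_e = P_e`, `P_e P_a = P_a`, and taking adjoints `P_a = P_e`.  Hence `B a a = b a a • B e e` for all `a` fixed by `P_e`; polarise.
`Trs.orth`: for `a = B f f z`, `b (B e e a) a = b (B a a e) e = b a a * b (B f f e) e = 0`; use `sq`.
`exists_fam`: a `Fam` is orthonormal (`b (e i) (e j) = b (B (e i) (e i) (e i)) (e j) = 0`), hence linearly independent, so its size is at most `finrank`; take a family of maximal size `N + 1`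
(`Nat.findGreatest`, or strong induction on `finrank - size`); if `z' = z - ∑ P_i z ≠ 0`, then `P_i z' = 0` for all `i` (`orth`, `s4`), and `Fin.cons` of the normalised `z'` is a larger family (`orth_symm`).
Prefix helper names by `alg_b_`.
-/

namespace Vale.Agent.P231

open Real Set

variable {E : Type*} [AddCommGroup E] [Module ℝ E] {b : E →ₗ[ℝ] E →ₗ[ℝ] ℝ}
  {B : E →ₗ[ℝ] E →ₗ[ℝ] E →ₗ[ℝ] E}

theorem alg_b_idem (h : PQ b B) {e : E} (he : b e e = 1) (z : E) :
    B e e (B e e z) = B e e z := by rw [h.s4, he, one_smul]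

theorem alg_b_unit {P : E →ₗ[ℝ] E} {c : ℝ} (hc : 0 < c) {v : E} (h : P (c • v) = c • v) :
    P v = v := smul_right_injective E hc.ne' ((map_smul P c v).symm.trans h)

theorem alg_b_fix (h : PQ b B) (ht : Trs b B) {e a z : E} (he : b e e = 1) (h1 : b a a = 1)
    (ha : B e e a = a) (hz : B e e z = z) : B a a z = z := by
  rcases eq_or_ne z 0 with rfl | h0
  · exact map_zero _
  obtain ⟨c, v, hc, hv, rfl⟩ := h.exists_unit h0
  rw [map_smul, (h.fix_iff h1 hv).1 (ht e a v he h1 hv ((h.fix_iff he h1).2 ha)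
    ((h.fix_iff he hv).2 (alg_b_unit hc hz)))]

theorem alg_b_sq (h : PQ b B) (ht : Trs b B) {e a : E} (he : b e e = 1) (ha : B e e a = a) :
    B a a = b a a • B e e := by
  rcases eq_or_ne a 0 with rfl | h0
  · simp
  obtain ⟨c, v, hc, hv, rfl⟩ := h.exists_unit h0
  replace ha := alg_b_unit hc ha
  have h1 := alg_b_fix h ht he hv ha (by rw [h.s3, he, one_smul] : B e e e = e)
  have h2 : B v v = B e e := LinearMap.ext fun z => h.ext fun y => by
    rw [← alg_b_fix h ht hv he h1 (alg_b_idem h hv z), h.adj, h.adj,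
      alg_b_fix h ht he hv ha (alg_b_idem h he y), h.adj]
  simp only [map_smul, LinearMap.smul_apply, h2, hv, smul_smul, smul_eq_mul, mul_one]

theorem Trs.same (h : PQ b B) (ht : Trs b B) {e a a' : E} (he : b e e = 1) (ha : B e e a = a)
    (ha' : B e e a' = a') : B a a' = b a a' • B e e := by
  have h3 := alg_b_sq h ht he (a := a + a') (by rw [map_add, ha, ha'])
  simp only [map_add, LinearMap.add_apply, alg_b_sq h ht he ha, alg_b_sq h ht he ha', h.s1 a' a,
    h.bs a' a] at h3
  linear_combination (norm := module) (1 / 2 : ℝ) • h3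

theorem Trs.orth (h : PQ b B) (ht : Trs b B) {e f : E} (he : b e e = 1) (hf : b f f = 1)
    (hef : B e e f = 0) (z : E) : B e e (B f f z) = 0 := by
  refine h.eq_zero ?_
  rw [h.sq, h.sw, alg_b_sq h ht hf (alg_b_idem h hf z), LinearMap.smul_apply, h.orth_symm hf hef]
  simp

theorem alg_b_card [FiniteDimensional ℝ E] (h : PQ b B) {N : ℕ} {e : Fin N → E} (hf : Fam b B e) :
    N ≤ Module.finrank ℝ E := by
  have h1 : ∀ i j, i ≠ j → b (e i) (e j) = 0 := fun i j hij => by
    have := h.adj (e i) (e i) (e i) (e j)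
    rwa [h.s3, hf.unit, one_smul, hf.orth i j hij, map_zero] at this
  have h2 : LinearIndependent ℝ e := Fintype.linearIndependent_iff.2 fun g hg i => by
    have := congrArg (b (e i)) hg
    rwa [map_sum, map_zero, Finset.sum_eq_single i (fun j _ hj => by
      rw [map_smul, h1 i j hj.symm, smul_zero]) (by simp), map_smul, hf.unit, smul_eq_mul,
      mul_one] at this
  simpa using h2.fintype_card_le_finrank

theorem alg_b_ind [FiniteDimensional ℝ E] (h : PQ b B) (ht : Trs b B) (n : ℕ) :
    ∀ (N : ℕ) (e : Fin (N + 1) → E), Module.finrank ℝ E ≤ N + n → Fam b B e →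
      ∃ (N : ℕ) (e : Fin (N + 1) → E), Fam b B e ∧ ∀ z, ∑ i, B (e i) (e i) z = z := by
  induction n with
  | zero => exact fun N e h1 hf => absurd (alg_b_card h hf) (by omega)
  | succ n ih =>
    intro N e h1 hf
    by_cases h2 : ∀ z, ∑ i, B (e i) (e i) z = z
    · exact ⟨N, e, hf, h2⟩
    obtain ⟨z, hz⟩ := not_forall.1 h2
    obtain ⟨c, v, hc, hv, e1⟩ := h.exists_unit (sub_ne_zero.2 hz)
    have h3 : ∀ i, B (e i) (e i) v = 0 := fun i => by
      refine (smul_eq_zero_iff_right hc.ne').1 ?_
      rw [← map_smul, ← e1, map_sub, map_sum, Finset.sum_eq_single i (fun j _ hj =>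
        ht.orth h (hf.unit i) (hf.unit j) (hf.orth i j hj.symm) z) (by simp),
        alg_b_idem h (hf.unit i), sub_self]
    refine ih (N + 1) (Fin.cons v e) (by omega) ⟨fun i => ?_, fun i j hij => ?_⟩
    · cases i using Fin.cases
      exacts [hv, hf.unit _]
    · cases i using Fin.cases <;> cases j using Fin.cases
      exacts [absurd rfl hij, h.orth_symm hv (h3 _), h3 _,
        hf.orth _ _ fun e => hij (congrArg _ e)]

theorem exists_fam [FiniteDimensional ℝ E] [Nontrivial E] (h : PQ b B) (ht : Trs b B) :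
    ∃ (N : ℕ) (e : Fin (N + 1) → E), Fam b B e ∧ ∀ z, ∑ i, B (e i) (e i) z = z := by
  obtain ⟨u, hu⟩ := exists_ne (0 : E)
  obtain ⟨c, v, -, hv, -⟩ := h.exists_unit hu
  exact alg_b_ind h ht _ 0 (fun _ => v) (Nat.zero_add _).ge
    ⟨fun _ => hv, fun i j hij => absurd (Subsingleton.elim (α := Fin 1) i j) hij⟩

end Vale.Agent.P231
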