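import Vale.Agent.P231.K.AlgB

/-!
# Cross terms between orthogonal lines
-/

namespace Vale.Agent.P231

open Real Set

variable {E : Type*} [AddCommGroup E] [Module ℝ E] {b : E →ₗ[ℝ] E →ₗ[ℝ] ℝ}
  {B : E →ₗ[ℝ] E →ₗ[ℝ] E →ₗ[ℝ] E}
  {e f k a c d z : E}

theorem ph_comm (h : PQ b B) (a c : E) : ph B a c = ph B c a := by
  rw [ph, ph, h.s1]

theorem ph_adj (h : PQ b B) (a c x y : E) : b (ph B a c x) y = b x (ph B a c y) := by
  simp only [ph, LinearMap.smul_apply, map_smul, h.adj]

theorem alg_c_ph (a c z : E) : ph B a c z = (2 : ℝ) • B a c z := rfl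

theorem alg_c_kill (h : PQ b B) (ht : Trs b B) (he : b e e = 1) (hf : b f f = 1)
    (hef : B e e f = 0) (hz : B f f z = z) : B e e z = 0 := by
  rw [← hz]
  exact ht.orth h he hf hef z

theorem alg_c_ip (h : PQ b B) (ht : Trs b B) (he : b e e = 1) (hf : b f f = 1)
    (hef : B e e f = 0) (ha : B e e a = a) (hc : B f f c = c) : b a c = 0 := by
  rw [← ha, h.adj, alg_c_kill h ht he hf hef hc, map_zero]

theorem alg_c_key (h : PQ b B) (ht : Trs b B) (he : b e e = 1) (ha : B e e a = a)
    (hac : b a c = 0) (z : E) : ph B a c (B e e z) + B e e (ph B a c z) = ph B a c z := by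
  by_cases h0 : a = 0
  · simp [h0, ph]
  · have h1 := h.pol a c z
    rw [ht.same h he ha ha, hac, zero_smul, zero_add] at h1
    simp only [LinearMap.smul_apply, map_smul, ← smul_add] at h1
    have h2 := smul_right_injective E (h.bp a h0).ne' h1
    simp only [alg_c_ph, map_smul, ← smul_add]
    rw [h2]

theorem alg_c_exp (h : PQ b B) (a c z : E) :
    B (a + c) (a + c) z = B a a z + ph B a c z + B c c z := by
  simp only [map_add, LinearMap.add_apply, alg_c_ph, h.s1 c a, two_smul]
  abel

theorem cross_mem (h : PQ b B) (ht : Trs b B) (he : b e e = 1) (hf : b f f = 1)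
    (hef : B e e f = 0) (ha : B e e a = a) (hc : B f f c = c) (hz : B e e z = z) :
    B f f (ph B a c z) = ph B a c z := by
  have h1 := alg_c_key h ht hf hc (c := a) (by rw [h.bs, alg_c_ip h ht he hf hef ha hc]) z
  rwa [alg_c_kill h ht hf he (h.orth_symm hf hef) hz, map_zero, zero_add, ph_comm h c a] at h1

theorem cross_zero (h : PQ b B) (ht : Trs b B) (he : b e e = 1) (hf : b f f = 1)
    (hef : B e e f = 0) (ha : B e e a = a) (hc : B f f c = c) (hz : B e e z = 0)
    (hz' : B f f z = 0) : ph B a c z = 0 := by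
  have h0 := alg_c_ip h ht he hf hef ha hc
  have h1 := alg_c_key h ht hf hc (c := a) (by rw [h.bs, h0]) z
  have h2 := alg_c_key h ht he ha h0 z
  rw [hz', map_zero, zero_add, ph_comm h c a] at h1
  rw [hz, map_zero, zero_add, alg_c_kill h ht he hf hef h1] at h2
  exact h2.symm

theorem cross_self (h : PQ b B) (ht : Trs b B) (he : b e e = 1) (hf : b f f = 1)
    (hef : B e e f = 0) (ha : B e e a = a) (hc : B f f c = c) : ph B a c a = b a a • c := by
  rw [ph_comm h, alg_c_ph, h.self, h.bs c a, alg_c_ip h ht he hf hef ha hc, ht.same h he ha ha,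
    LinearMap.smul_apply, alg_c_kill h ht he hf hef hc]
  simp

theorem cross_sq (h : PQ b B) (ht : Trs b B) (he : b e e = 1) (hf : b f f = 1)
    (hef : B e e f = 0) (ha : B e e a = a) (hc : B f f c = c) (hz : B e e z = z) :
    ph B a c (ph B a c z) = (b a a * b c c) • z := by
  have h0 := alg_c_ip h ht he hf hef ha hc
  have h0' : b c a = 0 := by rw [h.bs, h0]
  have hw := cross_mem h ht he hf hef ha hc hz
  have hw' := alg_c_kill h ht he hf hef hw
  have hz' := alg_c_kill h ht hf he (h.orth_symm hf hef) hz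
  have h1 := h.s4 (a + c) z
  simp only [alg_c_exp h, ht.same h he ha ha, ht.same h hf hc hc, LinearMap.smul_apply] at h1
  simp only [map_add, map_smul, LinearMap.add_apply, hz, hz', hw, hw', h0, h0', smul_zero,
    add_zero, zero_add] at h1
  linear_combination (norm := module) h1

theorem cross_three (h : PQ b B) (ht : Trs b B) (he : b e e = 1) (hf : b f f = 1)
    (hk : b k k = 1) (hef : B e e f = 0) (hek : B e e k = 0) (hfk : B f f k = 0)
    (ha : B e e a = a) (hc : B f f c = c) (hd : B k k d = d) (hz : B f f z = z) :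
    ph B a d (ph B a c z) = b a a • ph B c d z := by
  have hfe := h.orth_symm hf hef
  have hke := h.orth_symm hk hek
  have hkf := h.orth_symm hk hfk
  have i1 := alg_c_ip h ht he hf hef ha hc
  have i2 := alg_c_ip h ht he hk hek ha hd
  have i3 := alg_c_ip h ht hf hk hfk hc hd
  have i4 : b c a = 0 := by rw [h.bs, i1]
  have i5 : b d a = 0 := by rw [h.bs, i2]
  have i6 : b d c = 0 := by rw [h.bs, i3]
  have z1 := alg_c_kill h ht he hf hef hz
  have z2 := alg_c_kill h ht hk hf hkf hz
  have z3 := cross_zero h ht he hk hek ha hd z1 z2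
  have u0 := cross_mem h ht hf he hfe hc ha hz
  have u4 := cross_sq h ht hf he hfe hc ha hz
  rw [ph_comm h c a] at u0 u4
  have u1 := alg_c_kill h ht hf he hfe u0
  have u2 := alg_c_kill h ht hk he hke u0
  have u3 := cross_zero h ht hf hk hfk hc hd u1 u2
  have v0 := cross_mem h ht hf hk hfk hc hd hz
  have v1 := alg_c_kill h ht he hk hek v0
  have v2 := alg_c_kill h ht hf hk hfk v0
  have v3 := cross_zero h ht he hf hef ha hc v1 v2
  have v4 := cross_sq h ht hf hk hfk hc hd hz
  have w1 := cross_mem h ht he hk hek ha hd u0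
  have w2 := cross_mem h ht hk he hke hd ha v0
  rw [ph_comm h d a] at w2
  have w3 := alg_c_kill h ht hk he hke w2
  have e1 : ∀ x, ph B (a + c) d x = ph B a d x + ph B c d x := fun x => by
    simp only [alg_c_ph, map_add, LinearMap.add_apply, smul_add]
  have h1 := h.s4 (a + c + d) z
  simp only [alg_c_exp h, e1, ht.same h he ha ha, ht.same h hf hc hc, ht.same h hk hd hd,
    LinearMap.smul_apply] at h1
  simp only [map_add, map_smul, LinearMap.add_apply, hz, z1, z2, z3, u0, u1, u2, u3, u4, v0, v1,
    v2, v3, v4, i1, i2, i3, i4, i5, i6, smul_zero, add_zero, zero_add] at h1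
  have h2 : ph B a d (ph B a c z) + ph B a d (ph B c d z) =
      b d d • ph B a c z + b a a • ph B c d z := by
    linear_combination (norm := module) h1
  have h3 := congrArg (B k k) h2
  rwa [map_add, map_add, map_smul, map_smul, w1, w3, u2, v0, smul_zero, add_zero, zero_add] at h3

theorem cross_graph (h : PQ b B) (ht : Trs b B) (he : b e e = 1) (hf : b f f = 1)
    (hef : B e e f = 0) (ha : B e e a = a) (ha1 : b a a = 1) (hc : B f f c = c)
    (hz : B e e z = z) : ph B a c z = ph B e (ph B a c e) z := by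
  have hfe := h.orth_symm hf hef
  have hee : B e e e = e := by rw [h.s3, he, one_smul]
  have i1 := alg_c_ip h ht he hf hef ha hc
  have i2 : b c a = 0 := by rw [h.bs, i1]
  have c0 := cross_mem h ht he hf hef ha hc hee
  have j1 := alg_c_ip h ht he hf hef hee c0
  have j2 : b (ph B a c e) e = 0 := by rw [h.bs, j1]
  have j3 : b (ph B a c e) (ph B a c e) = b c c := by
    rw [ph_adj h, cross_sq h ht he hf hef ha hc hee, map_smul, ha1, he, one_mul, smul_eq_mul,
      mul_one]
  have n1 : b (a + c) (a + c) = 1 + b c c := by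
    simp only [map_add, LinearMap.add_apply, ha1, i1, i2, add_zero, zero_add]
  have n2 : b (e + ph B a c e) (e + ph B a c e) = 1 + b c c := by
    simp only [map_add, LinearMap.add_apply, he, j1, j2, j3, add_zero, zero_add]
  have n0 : 0 < 1 + b c c := by linarith [h.nonneg c]
  have hy : a + c ≠ 0 := fun h0 => by
    rw [h0, map_zero] at n1
    exact n0.ne n1
  obtain ⟨s, v, -, hv, e1⟩ := h.exists_unit hy
  have hvy : B v v (a + c) = a + c := by rw [e1, map_smul, h.s3, hv, one_smul]
  have e2 := ht.same h hv hvy hvy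
  have ap : ∀ x, B e e x = x → B (a + c) (a + c) x = x + ph B a c x := fun x hx => by
    rw [alg_c_exp h, ht.same h he ha ha, ht.same h hf hc hc, LinearMap.smul_apply,
      LinearMap.smul_apply, hx, alg_c_kill h ht hf he hfe hx, ha1, one_smul, smul_zero, add_zero]
  have h1 := h.s4 (a + c) e
  rw [ap e hee, e2, LinearMap.smul_apply, n1] at h1
  have h2 := smul_right_injective E n0.ne' h1
  have e3 := ht.same h hv h2 h2
  rw [n2, ← n1, ← e2] at e3
  have h3 := ap z hz
  rw [← e3, alg_c_exp h, ht.same h hf c0 c0, LinearMap.smul_apply, hz,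
    alg_c_kill h ht hf he hfe hz, smul_zero, add_zero] at h3
  exact (add_left_cancel h3).symm

end Vale.Agent.P231
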