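import Vale.Agent.P231.K.Defs

/-!
# Composition algebras: the basic laws and doubling  (TASK)

Conway-Smith.  `scl`, `scr`: polarise `norm` once; `exch`: polarise `scl` in `x`.  `brl`: `exch x y e z` and `cj`; `brr` likewise.  `cj_mul`: pair with `t` and move factors with `brl`, `brr`, `ip_cj`.
`altl`, `altr`: pair with `t`, `brl`/`brr` and `scl`/`scr`.  `lin_l`, `lin_r`: pair with `t`, `brl`/`brr`, `exch`.
`double`: with `j` a unit orthogonal to the image `H`: `cj j = -j`, `b a (c j) = b (c̄ a) j = 0`, so `c j` is imaginary and `c j = j c̄`; `(c j) a = (c ā) j` (`lin_r`), `a (d j) = (d a) j` (`lin_l`, `cj_mul`),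
`(c j) (d j) = -d̄ c` (`lin_l`, `altr`).
Prefix helper names by `comp_a_`.
-/

namespace Vale.Agent.P231

open Real Set

variable {K : Type*} [AddCommGroup K] [Module ℝ K] {b : K →ₗ[ℝ] K →ₗ[ℝ] ℝ}
  {μ : K →ₗ[ℝ] K →ₗ[ℝ] K} {e : K}

theorem Comp.ext (h : Comp b μ e) {x y : K} (hxy : ∀ z, b x z = b y z) : x = y := by
  refine sub_eq_zero.1 (by_contra fun h0 => (h.bp _ h0).ne' ?_)
  rw [map_sub b, LinearMap.sub_apply, hxy, sub_self]

theorem Comp.scl (h : Comp b μ e) (x y z : K) : b (μ x y) (μ x z) = b x x * b y z := by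
  have h1 := h.norm x (y + z)
  simp only [map_add, LinearMap.add_apply, h.bs (μ x z) (μ x y), h.bs z y] at h1
  linear_combination (h1 - h.norm x y - h.norm x z) / 2

theorem Comp.scr (h : Comp b μ e) (x y z : K) : b (μ x z) (μ y z) = b x y * b z z := by
  have h1 := h.norm (x + y) z
  simp only [map_add, LinearMap.add_apply, h.bs (μ y z) (μ x z), h.bs y x] at h1
  linear_combination (h1 - h.norm x z - h.norm y z) / 2

theorem Comp.exch (h : Comp b μ e) (x y u z : K) :
    b (μ x y) (μ u z) + b (μ x z) (μ u y) = 2 * b x u * b y z := by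
  have h1 := h.scl (x + u) y z
  simp only [map_add, LinearMap.add_apply, h.bs (μ u y) (μ x z), h.bs u x] at h1
  linear_combination h1 - h.scl x y z - h.scl u y z

theorem Comp.brl (h : Comp b μ e) (x y z : K) : b (μ x y) z = b y (μ (cj b e x) z) := by
  have h1 := h.exch x y e z
  simp only [h.one_mul, h.bs (μ x z) y] at h1
  simp only [cj, map_sub, map_smul, LinearMap.sub_apply, LinearMap.smul_apply, h.one_mul,
    smul_eq_mul]
  linear_combination h1

theorem Comp.brr (h : Comp b μ e) (x y z : K) : b (μ x y) z = b x (μ z (cj b e y)) := by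
  have h1 := h.exch x y z e
  simp only [h.mul_one] at h1
  simp only [cj, map_sub, map_smul, h.mul_one, smul_eq_mul]
  linear_combination h1

theorem Comp.cj_cj (h : Comp b μ e) (x : K) : cj b e (cj b e x) = x := by
  simp only [cj, map_sub, map_smul, LinearMap.sub_apply, LinearMap.smul_apply, h.one, smul_eq_mul]
  module

theorem Comp.cj_one (h : Comp b μ e) : cj b e e = e := by
  rw [cj, h.one]
  module

theorem Comp.ip_cj (h : Comp b μ e) (x y : K) : b (cj b e x) (cj b e y) = b x y := by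
  simp only [cj, map_sub, map_smul, LinearMap.sub_apply, LinearMap.smul_apply, h.one, smul_eq_mul,
    h.bs e y]
  ring

theorem Comp.cj_mul (h : Comp b μ e) (x y : K) :
    cj b e (μ x y) = μ (cj b e y) (cj b e x) := by
  refine h.ext fun t => ?_
  rw [h.brl, h.cj_cj, h.bs (cj b e x), h.brr, ← h.brl, ← h.ip_cj (μ x y), h.cj_cj]

theorem Comp.altl (h : Comp b μ e) (x z : K) : μ (cj b e x) (μ x z) = b x x • z := by
  refine h.ext fun t => ?_
  rw [h.brl, h.cj_cj, h.scl, map_smul, LinearMap.smul_apply, smul_eq_mul]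

theorem Comp.altr (h : Comp b μ e) (x z : K) : μ (μ z x) (cj b e x) = b x x • z := by
  refine h.ext fun t => ?_
  rw [h.brr, h.cj_cj, h.scr, map_smul, LinearMap.smul_apply, smul_eq_mul, mul_comm]

theorem Comp.mul_cj (h : Comp b μ e) (x : K) : μ x (cj b e x) = b x x • e := by
  simpa only [h.one_mul] using h.altr x e

theorem Comp.lin_l (h : Comp b μ e) (x y z : K) :
    μ x (μ (cj b e y) z) + μ y (μ (cj b e x) z) = (2 * b x y) • z := by
  refine h.ext fun t => ?_
  rw [map_add, LinearMap.add_apply, h.brl x, h.brl y, h.bs (μ (cj b e x) z), h.exch, h.ip_cj,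
    map_smul, LinearMap.smul_apply, smul_eq_mul, h.bs y]

theorem Comp.lin_r (h : Comp b μ e) (x y z : K) :
    μ (μ z (cj b e y)) x + μ (μ z (cj b e x)) y = (2 * b x y) • z := by
  refine h.ext fun t => ?_
  rw [map_add, LinearMap.add_apply, h.brr _ x, h.brr _ y, h.exch, h.ip_cj,
    map_smul, LinearMap.smul_apply, smul_eq_mul, h.bs y]
  ring

theorem comp_a_im {x : K} (hx : b x e = 0) : cj b e x = -x := by
  rw [cj, hx, mul_zero, zero_smul, zero_sub]

theorem comp_a_add (x y : K) : cj b e (x + y) = cj b e x + cj b e y := by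
  simp only [cj, map_add, LinearMap.add_apply]
  module

theorem Comp.double (h : Comp b μ e) {A : Type*} [AddCommGroup A] [Module ℝ A] {mA : A → A → A}
    {cA : A → A} {oA : A} {iA : A → A → ℝ} {φ : A →ₗ[ℝ] K} (hφ : Hom b μ e mA cA oA iA φ) {j : K}
    (hj : b j j = 1) (hp : ∀ x, b (φ x) j = 0) :
    Hom b μ e (fun x y : A × A => (mA x.1 y.1 - mA (cA y.2) x.2, mA y.2 x.1 + mA x.2 (cA y.1)))
      (fun x => (cA x.1, -x.2)) (oA, 0) (fun x y => iA x.1 y.1 + iA x.2 y.2)
      (φ.coprod (μ.flip j ∘ₗ φ)) := by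
  have j1 : cj b e j = -j := comp_a_im (by rw [h.bs, ← hφ.one, hp])
  have o1 : ∀ c a, b (μ (φ c) j) (φ a) = 0 := fun c a => by
    rw [h.brl, ← hφ.conj, ← hφ.mul, h.bs, hp]
  have j2 : ∀ c, cj b e (μ (φ c) j) = -μ (φ c) j := fun c => comp_a_im (hφ.one ▸ o1 c oA)
  have j3 : ∀ c, μ (φ c) j = μ j (cj b e (φ c)) := fun c => by
    have := h.cj_mul (φ c) j
    rwa [j1, j2, map_neg, LinearMap.neg_apply, neg_inj] at this
  have m1 : ∀ c a, μ (μ (φ c) j) (φ a) = μ (μ (φ c) (cj b e (φ a))) j := fun c a => by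
    have := h.lin_r (φ a) j (φ c)
    rw [j1, hp, mul_zero, zero_smul, map_neg, map_neg, LinearMap.neg_apply] at this
    exact neg_add_eq_zero.1 this
  have m2 : ∀ a d, μ (φ a) (μ (φ d) j) = μ (μ (φ d) (φ a)) j := fun a d => by
    have := h.lin_l (φ a) j (cj b e (φ d))
    rw [j1, hp, mul_zero, zero_smul, map_neg, LinearMap.neg_apply, map_neg, ← j3, ← h.cj_mul,
      ← hφ.mul, ← j3, hφ.mul] at this
    exact neg_add_eq_zero.1 this
  have m3 : ∀ c d, μ (μ (φ c) j) (μ (φ d) j) = -μ (cj b e (φ d)) (φ c) := fun c d => by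
    have a1 := h.altr j (φ c)
    have a2 := h.lin_l (μ (φ c) j) (cj b e (φ d)) j
    rw [j1, hj, one_smul, map_neg] at a1
    rw [h.cj_cj, j2, map_neg, LinearMap.neg_apply, a1, ← hφ.conj, o1, mul_zero, zero_smul,
      hφ.conj] at a2
    exact eq_neg_of_add_eq_zero_left a2
  refine ⟨fun x y => ?_, fun x => ?_, ?_, fun x y => ?_⟩ <;>
    simp only [LinearMap.coprod_apply, LinearMap.comp_apply, LinearMap.flip_apply, map_add, map_sub,
      map_neg, map_zero, LinearMap.add_apply, add_zero, hφ.mul, hφ.conj, hφ.one]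
  · rw [m1, m2, m3]
    abel
  · rw [comp_a_add, j2]
  · rw [hφ.ip, o1, h.bs (φ x.1), o1, h.scr, hφ.ip, hj]
    ring

end Vale.Agent.P231
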