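import Vale.Agent.P231.K.AlgC
import Vale.Agent.P231.K.CompA

/-!
# The algebra of a line  (TASK)

`φ = ph B e f` exchanges `F_e` and `F_f` isometrically, `φ φ = 1` there, `φ e = f` (`cross_*` with `(a, c) = (e, f)`, and with the roles exchanged through `ph_comm`, `orth_symm`).
`mem_K`: elements of the range of `B e e` are fixed (`s4`).  `coe_mK`: `mE` lies in `F_e`.  `comp_mK`: norm by `ph_adj`, `cross_sq`; units by `cross_self`.
`ph_graph`: for unit `a` put `c = φ β`, `c' = ph B a c e = φ β'`; `cross_graph` gives `ph B a c x = φ (β' x)`; with `x = a` and `cross_self`, `β = β' a`, so `β' = β ā` (`altr`); general `a` by scaling (`exists_unit`, `cj` is linear).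
`ph_back`: pair with `t ∈ F_e`, `ph_adj`, `brl`.
Prefix helper names by `coord_a_`.
-/

namespace Vale.Agent.P231

open Real Set

variable {E : Type*} [AddCommGroup E] [Module ℝ E] {b : E →ₗ[ℝ] E →ₗ[ℝ] ℝ}
  {B : E →ₗ[ℝ] E →ₗ[ℝ] E →ₗ[ℝ] E}
  {e f : E}

/-- The unit of the algebra. -/
def uK (B : E →ₗ[ℝ] E →ₗ[ℝ] E →ₗ[ℝ] E) (e : E) : LinearMap.range (B e e) :=
  (B e e).rangeRestrict e

theorem coord_a_ee (h : PQ b B) (he : b e e = 1) : B e e e = e := by rw [h.s3, he, one_smul]

theorem mem_K (h : PQ b B) (he : b e e = 1) (x : LinearMap.range (B e e)) :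
    B e e (x : E) = x := by
  obtain ⟨z, hz⟩ := x.2
  rw [← hz]
  exact alg_b_idem h he z

theorem coe_uK (h : PQ b B) (he : b e e = 1) : (uK B e : E) = e := coord_a_ee h he

theorem ph_mem (h : PQ b B) (ht : Trs b B) (he : b e e = 1) (hf : b f f = 1) (hef : B e e f = 0)
    (x : LinearMap.range (B e e)) : B f f (ph B e f x) = ph B e f x :=
  cross_mem h ht he hf hef (coord_a_ee h he) (coord_a_ee h hf) (mem_K h he x)

theorem ph_ph (h : PQ b B) (ht : Trs b B) (he : b e e = 1) (hf : b f f = 1) (hef : B e e f = 0)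
    {z : E} (hz : B e e z = z ∨ B f f z = z) : ph B e f (ph B e f z) = z := by
  rcases hz with hz | hz
  · rw [cross_sq h ht he hf hef (coord_a_ee h he) (coord_a_ee h hf) hz, he, hf, mul_one, one_smul]
  · rw [ph_comm h, cross_sq h ht hf he (h.orth_symm hf hef) (coord_a_ee h hf) (coord_a_ee h he) hz,
      he, hf, mul_one, one_smul]

theorem coord_a_back (h : PQ b B) (ht : Trs b B) (he : b e e = 1) (hf : b f f = 1)
    (hef : B e e f = 0) {a c z : E} (ha : B e e a = a) (hc : B f f c = c) (hz : B f f z = z) :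
    B e e (ph B a c z) = ph B a c z := by
  rw [ph_comm h]
  exact cross_mem h ht hf he (h.orth_symm hf hef) hc ha hz

theorem coord_a_mid (h : PQ b B) (ht : Trs b B) (he : b e e = 1) (hf : b f f = 1)
    (hef : B e e f = 0) (x y : LinearMap.range (B e e)) :
    B f f (ph B e (ph B e f x) y) = ph B e (ph B e f x) y :=
  cross_mem h ht he hf hef (coord_a_ee h he) (ph_mem h ht he hf hef x) (mem_K h he y)

theorem coe_mK (h : PQ b B) (ht : Trs b B) (he : b e e = 1) (hf : b f f = 1) (hef : B e e f = 0)
    (x y : LinearMap.range (B e e)) : (mK B e f x y : E) = mE B e f x y :=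
  coord_a_back h ht he hf hef (coord_a_ee h he) (coord_a_ee h hf) (coord_a_mid h ht he hf hef x y)

theorem coord_a_phm (h : PQ b B) (ht : Trs b B) (he : b e e = 1) (hf : b f f = 1)
    (hef : B e e f = 0) (x y : LinearMap.range (B e e)) :
    ph B e f (mK B e f x y) = ph B e (ph B e f x) y := by
  rw [coe_mK h ht he hf hef, mE, ph_ph h ht he hf hef (Or.inr (coord_a_mid h ht he hf hef x y))]

theorem coord_a_bK (F : Submodule ℝ E) (x y : F) : bK b F x y = b x y := rfl

theorem comp_mK (h : PQ b B) (ht : Trs b B) (he : b e e = 1) (hf : b f f = 1)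
    (hef : B e e f = 0) : Comp (bK b (LinearMap.range (B e e))) (mK B e f) (uK B e) := by
  have hee := coord_a_ee h he
  have hff := coord_a_ee h hf
  refine ⟨fun u w => h.bs _ _, fun u hu => h.bp _ fun h0 => hu (Subtype.ext h0), ?_,
    fun x => Subtype.ext ?_, fun x => Subtype.ext ?_, fun x y => ?_⟩
  · rw [coord_a_bK, coe_uK h he, he]
  · rw [coe_mK h ht he hf hef, mE, coe_uK h he,
      cross_self h ht he hf hef hee (ph_mem h ht he hf hef x), he, one_smul,
      ph_ph h ht he hf hef (Or.inl (mem_K h he x))]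
  · rw [coe_mK h ht he hf hef, mE, coe_uK h he, cross_self h ht he hf hef hee hff, he, one_smul,
      ph_ph h ht he hf hef (Or.inl (mem_K h he x))]
  · rw [coord_a_bK, coord_a_bK, coord_a_bK, coe_mK h ht he hf hef, mE, ph_adj h,
      ph_ph h ht he hf hef (Or.inr (coord_a_mid h ht he hf hef x y)), ph_adj h,
      cross_sq h ht he hf hef hee (ph_mem h ht he hf hef x) (mem_K h he y), he, one_mul, ph_adj h,
      ph_ph h ht he hf hef (Or.inl (mem_K h he x)), map_smul, smul_eq_mul]

theorem coord_a_unit (h : PQ b B) (ht : Trs b B) (he : b e e = 1) (hf : b f f = 1)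
    (hef : B e e f = 0) (a β x : LinearMap.range (B e e)) (ha : b a a = 1) :
    ph B a (ph B e f β) x = ph B e f (mK B e f (mK B e f β (cj (bK b _) (uK B e) a)) x) := by
  have hee := coord_a_ee h he
  have hff := coord_a_ee h hf
  have hc := ph_mem h ht he hf hef β
  have hc' := cross_mem h ht he hf hef (mem_K h he a) hc hee
  let β' : LinearMap.range (B e e) :=
    ⟨ph B e f (ph B a (ph B e f β) e), _, coord_a_back h ht he hf hef hee hff hc'⟩
  have e1 : ph B e f β' = ph B a (ph B e f β) e := ph_ph h ht he hf hef (Or.inr hc')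
  have e2 : ∀ y : LinearMap.range (B e e),
      ph B a (ph B e f β) y = ph B e f (mK B e f β' y) := fun y => by
    rw [coord_a_phm h ht he hf hef, e1]
    exact cross_graph h ht he hf hef (mem_K h he a) ha hc (mem_K h he y)
  have e3 : β = mK B e f β' a := by
    have := e2 a
    rw [cross_self h ht he hf hef (mem_K h he a) hc, ha, one_smul] at this
    refine Subtype.ext ?_
    rw [← ph_ph h ht he hf hef (Or.inl (mem_K h he β)), this,
      ph_ph h ht he hf hef (Or.inl (mem_K h he _))]
  have e4 : mK B e f β (cj (bK b _) (uK B e) a) = β' := by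
    conv_lhs => rw [e3]
    rw [(comp_mK h ht he hf hef).altr, coord_a_bK, ha, one_smul]
  rw [e4, e2]

theorem coord_a_cj {K : Type*} [AddCommGroup K] [Module ℝ K] (c : K →ₗ[ℝ] K →ₗ[ℝ] ℝ) (u x : K)
    (t : ℝ) : cj c u (t • x) = t • cj c u x := by
  simp only [cj, map_smul, LinearMap.smul_apply, smul_eq_mul, smul_sub, smul_smul]
  rw [mul_left_comm]

theorem ph_graph (h : PQ b B) (ht : Trs b B) (he : b e e = 1) (hf : b f f = 1)
    (hef : B e e f = 0) (a β x : LinearMap.range (B e e)) : ph B a (ph B e f β) x =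
      ph B e f (mK B e f (mK B e f β (cj (bK b _) (uK B e) a)) x) := by
  have key : ∀ (t : ℝ) (v : LinearMap.range (B e e)), b v v = 1 →
      ph B ((t • v : LinearMap.range (B e e)) : E) (ph B e f β) x =
        ph B e f (mK B e f (mK B e f β (cj (bK b _) (uK B e) (t • v))) x) := fun t v hv => by
    rw [coord_a_cj, map_smul, map_smul, LinearMap.smul_apply, Submodule.coe_smul,
      Submodule.coe_smul, map_smul, ← coord_a_unit h ht he hf hef v β x hv]
    simp only [ph, map_smul, LinearMap.smul_apply]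
    module
  rcases eq_or_ne (a : E) 0 with h0 | h0
  · have := key 0 (uK B e) (by rw [coe_uK h he, he])
    rw [zero_smul] at this
    rw [show a = 0 from Subtype.ext h0]
    exact this
  · obtain ⟨c, v, hc, hv, hav⟩ := h.exists_unit h0
    have hm : B e e v = v := alg_b_unit hc (by rw [← hav]; exact mem_K h he a)
    have := key c ⟨v, v, hm⟩ hv
    rw [show a = c • ⟨v, v, hm⟩ from Subtype.ext hav]
    exact this

theorem ph_back (h : PQ b B) (ht : Trs b B) (he : b e e = 1) (hf : b f f = 1)
    (hef : B e e f = 0) (a β x : LinearMap.range (B e e)) : ph B a (ph B e f β) (ph B e f x) =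
      mK B e f (cj (bK b _) (uK B e) (mK B e f β (cj (bK b _) (uK B e) a))) x := by
  have hC := comp_mK h ht he hf hef
  have hm := coord_a_back h ht he hf hef (mem_K h he a) (ph_mem h ht he hf hef β)
    (ph_mem h ht he hf hef x)
  let L : LinearMap.range (B e e) := ⟨ph B a (ph B e f β) (ph B e f x), _, hm⟩
  refine congrArg Subtype.val (a₁ := L) (hC.ext fun t => ?_)
  rw [hC.brl, hC.cj_cj, coord_a_bK, coord_a_bK]
  show b (ph B a (ph B e f β) (ph B e f x)) t = _
  rw [ph_adj h, ph_graph h ht he hf hef, ph_adj h, ph_ph h ht he hf hef (Or.inl (mem_K h he _))]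

end Vale.Agent.P231
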