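import Vale.Agent.P231.K.CoordA

/-!
# Three orthogonal lines give associativity  (TASK)

For unit `a ∈ F_e`: `cross_three`, `ph_back` (for `f`) and `ph_graph` (for `k`) give `ph (φ_f β) (φ_k δ) (φ_f ξ) = φ_k (μ_k (μ_k δ ā) (μ_f (conj (μ_f β ā)) ξ))`.  With `a = 1` this is `ph_three`.
With `β = 1` and cancelling `φ_k` (`ph_ph`): `μ_k (μ_k δ ā) (μ_f a ξ) = μ_k δ ξ`.  `δ = a` gives `μ_f a ξ = μ_k a ξ` (`mul_cj`); scale to all `a`.  `δ = δ' a` gives associativity (`altr`).
Prefix helper names by `coord_b_`.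
-/

namespace Vale.Agent.P231

open Real Set

variable {E : Type*} [AddCommGroup E] [Module ℝ E] {b : E →ₗ[ℝ] E →ₗ[ℝ] ℝ}
  {B : E →ₗ[ℝ] E →ₗ[ℝ] E →ₗ[ℝ] E}
  {e f k : E}

theorem coord_b_key (h : PQ b B) (ht : Trs b B) (he : b e e = 1) (hf : b f f = 1) (hk : b k k = 1)
    (hef : B e e f = 0) (hek : B e e k = 0) (hfk : B f f k = 0)
    (a β δ ξ : LinearMap.range (B e e)) :
    ph B e k (mK B e k (mK B e k δ (cj (bK b _) (uK B e) a))
      (mK B e f (cj (bK b _) (uK B e) (mK B e f β (cj (bK b _) (uK B e) a))) ξ)) =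
      bK b _ a a • ph B (ph B e f β) (ph B e k δ) (ph B e f ξ) := by
  have h1 := cross_three h ht he hf hk hef hek hfk (mem_K h he a) (ph_mem h ht he hf hef β)
    (ph_mem h ht he hk hek δ) (ph_mem h ht he hf hef ξ)
  rw [ph_back h ht he hf hef, ph_graph h ht he hk hek] at h1
  exact h1

theorem coord_b_one (h : PQ b B) (ht : Trs b B) (he : b e e = 1) (hf : b f f = 1) (hk : b k k = 1)
    (hef : B e e f = 0) (hek : B e e k = 0) (hfk : B f f k = 0)
    (β δ ξ : LinearMap.range (B e e)) :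
    ph B (ph B e f β) (ph B e k δ) (ph B e f ξ) =
      ph B e k (mK B e k δ (mK B e f (cj (bK b _) (uK B e) β) ξ)) := by
  have cf := comp_mK h ht he hf hef
  have ck := comp_mK h ht he hk hek
  have h1 := coord_b_key h ht he hf hk hef hek hfk (uK B e) β δ ξ
  rw [cf.cj_one, cf.mul_one, ck.mul_one, cf.one, one_smul] at h1
  exact h1.symm

theorem coord_b_two (h : PQ b B) (ht : Trs b B) (he : b e e = 1) (hf : b f f = 1) (hk : b k k = 1)
    (hef : B e e f = 0) (hek : B e e k = 0) (hfk : B f f k = 0)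
    (a δ ξ : LinearMap.range (B e e)) :
    mK B e k (mK B e k δ (cj (bK b _) (uK B e) a)) (mK B e f a ξ) = bK b _ a a • mK B e k δ ξ := by
  have cf := comp_mK h ht he hf hef
  have h1 := coord_b_key h ht he hf hk hef hek hfk a (uK B e) δ ξ
  rw [coord_b_one h ht he hf hk hef hek hfk, cf.one_mul, cf.cj_cj, cf.cj_one, cf.one_mul,
    ← map_smul] at h1
  have h2 := congrArg (ph B e k) h1
  rw [ph_ph h ht he hk hek (Or.inl (mem_K h he _)), ← Submodule.coe_smul,
    ph_ph h ht he hk hek (Or.inl (mem_K h he _))] at h2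
  exact Subtype.ext h2

theorem mK_eq (h : PQ b B) (ht : Trs b B) (he : b e e = 1) (hf : b f f = 1) (hk : b k k = 1)
    (hef : B e e f = 0) (hek : B e e k = 0) (hfk : B f f k = 0) : mK B e f = mK B e k := by
  have ck := comp_mK h ht he hk hek
  refine LinearMap.ext fun a => LinearMap.ext fun ξ => ?_
  by_cases ha : a = 0
  · simp [ha]
  have h1 := coord_b_two h ht he hf hk hef hek hfk a a ξ
  rw [ck.mul_cj, map_smul, LinearMap.smul_apply, ck.one_mul] at h1
  exact smul_right_injective _ (ck.bp a ha).ne' h1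

theorem mK_assoc (h : PQ b B) (ht : Trs b B) (he : b e e = 1) (hf : b f f = 1) (hk : b k k = 1)
    (hef : B e e f = 0) (hek : B e e k = 0) (hfk : B f f k = 0) (x y z : LinearMap.range (B e e)) :
    mK B e f (mK B e f x y) z = mK B e f x (mK B e f y z) := by
  have cf := comp_mK h ht he hf hef
  by_cases hy : y = 0
  · simp [hy]
  have h1 := coord_b_two h ht he hf hk hef hek hfk y (mK B e f x y) z
  rw [← mK_eq h ht he hf hk hef hek hfk, cf.altr, map_smul, LinearMap.smul_apply] at h1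
  exact (smul_right_injective _ (cf.bp y hy).ne' h1).symm

theorem ph_three (h : PQ b B) (ht : Trs b B) (he : b e e = 1) (hf : b f f = 1) (hk : b k k = 1)
    (hef : B e e f = 0) (hek : B e e k = 0) (hfk : B f f k = 0)
    (β δ ξ : LinearMap.range (B e e)) : ph B (ph B e f β) (ph B e k δ) (ph B e f ξ) =
      ph B e k (mK B e f (mK B e f δ (cj (bK b _) (uK B e) β)) ξ) := by
  rw [coord_b_one h ht he hf hk hef hek hfk, mK_assoc h ht he hf hk hef hek hfk,
    ← mK_eq h ht he hf hk hef hek hfk]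

end Vale.Agent.P231
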