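import Vale.Agent.P231.StmtC

/-!
Algebraic definitions for the classification.  (No task here.)
`B u u` is `|u|²` times the orthogonal projector onto the tangent space of the line in direction `u`.
-/

namespace Vale.Agent.P231

open Real Set

section

variable {E K : Type*} [AddCommGroup E] [Module ℝ E] [AddCommGroup K] [Module ℝ K]

/-- A quadratic family of projectors. -/
structure PQ (b : E →ₗ[ℝ] E →ₗ[ℝ] ℝ) (B : E →ₗ[ℝ] E →ₗ[ℝ] E →ₗ[ℝ] E) : Prop where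
  bs : ∀ u w, b u w = b w u
  bp : ∀ u, u ≠ 0 → 0 < b u u
  s1 : ∀ u w, B u w = B w u
  sa : ∀ u z y, b (B u u z) y = b (B u u y) z
  sw : ∀ u z, b (B u u z) z = b (B z z u) u
  s3 : ∀ u, B u u u = b u u • u
  s4 : ∀ u z, B u u (B u u z) = b u u • B u u z

/-- Lying on the same line is transitive. -/
def Trs (b : E →ₗ[ℝ] E →ₗ[ℝ] ℝ) (B : E →ₗ[ℝ] E →ₗ[ℝ] E →ₗ[ℝ] E) : Prop :=
  ∀ u v w, b u u = 1 → b v v = 1 → b w w = 1 → b (B u u v) v = 1 → b (B u u w) w = 1 →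
    b (B v v w) w = 1

/-- An orthogonal family of lines. -/
structure Fam (b : E →ₗ[ℝ] E →ₗ[ℝ] ℝ) (B : E →ₗ[ℝ] E →ₗ[ℝ] E →ₗ[ℝ] E) {N : ℕ}
    (e : Fin N → E) : Prop where
  unit : ∀ i, b (e i) (e i) = 1
  orth : ∀ i j, i ≠ j → B (e i) (e i) (e j) = 0

/-- A unital composition algebra with a definite norm. -/
structure Comp (b : K →ₗ[ℝ] K →ₗ[ℝ] ℝ) (μ : K →ₗ[ℝ] K →ₗ[ℝ] K) (e : K) : Prop where
  bs : ∀ u w, b u w = b w u
  bp : ∀ u, u ≠ 0 → 0 < b u u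
  one : b e e = 1
  mul_one : ∀ x, μ x e = x
  one_mul : ∀ x, μ e x = x
  norm : ∀ x y, b (μ x y) (μ x y) = b x x * b y y

/-- Conjugation. -/
def cj (b : K →ₗ[ℝ] K →ₗ[ℝ] ℝ) (e x : K) : K := (2 * b x e) • e - x

/-- `φ` is an isometric homomorphism from `A` with product `mA`, conjugation `cA`, unit `oA` and
inner product `iA`. -/
structure Hom (b : K →ₗ[ℝ] K →ₗ[ℝ] ℝ) (μ : K →ₗ[ℝ] K →ₗ[ℝ] K) (e : K) {A : Type*} [AddCommGroup A]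
    [Module ℝ A] (mA : A → A → A) (cA : A → A) (oA : A) (iA : A → A → ℝ) (φ : A →ₗ[ℝ] K) :
    Prop where
  mul : ∀ x y, φ (mA x y) = μ (φ x) (φ y)
  conj : ∀ x, φ (cA x) = cj b e (φ x)
  one : φ oA = e
  ip : ∀ x y, b (φ x) (φ y) = iA x y

/-- Coordinates in `K ^ N`. -/
structure Coord (b : E →ₗ[ℝ] E →ₗ[ℝ] ℝ) (B : E →ₗ[ℝ] E →ₗ[ℝ] E →ₗ[ℝ] E)
    (c : K →ₗ[ℝ] K →ₗ[ℝ] ℝ) (μ : K →ₗ[ℝ] K →ₗ[ℝ] K) (e : K) {N : ℕ}
    (χ : E ≃ₗ[ℝ] (Fin N → K)) : Prop where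
  ip : ∀ u v, b u v = ∑ i, c (χ u i) (χ v i)
  q : ∀ u v, b (B u u v) v =
    ∑ i, ∑ j, c (μ (χ u i) (cj c e (χ u j))) (μ (χ v i) (cj c e (χ v j)))

/-- The identification of the line of `e` with the line of `f`. -/
def ph (B : E →ₗ[ℝ] E →ₗ[ℝ] E →ₗ[ℝ] E) (e f : E) : E →ₗ[ℝ] E := (2 : ℝ) • B e f

/-- The product on the line of `e` defined by the line of `f`. -/
def mE (B : E →ₗ[ℝ] E →ₗ[ℝ] E →ₗ[ℝ] E) (e f x y : E) : E := ph B e f (ph B e (ph B e f x) y)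

/-- The same, as a bilinear map on the range of `B e e`. -/
def mK (B : E →ₗ[ℝ] E →ₗ[ℝ] E →ₗ[ℝ] E) (e f : E) :
    LinearMap.range (B e e) →ₗ[ℝ] LinearMap.range (B e e) →ₗ[ℝ] LinearMap.range (B e e) :=
  LinearMap.mk₂ ℝ (fun x y => (B e e).rangeRestrict (mE B e f x y))
    (fun _ _ _ => by simp [mE, ph])
    (fun c _ _ => by simp [mE, ph, smul_smul, mul_comm c, mul_assoc])
    (fun _ _ _ => by simp [mE, ph])
    (fun c _ _ => by simp [mE, ph, smul_smul, mul_comm c, mul_assoc])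

/-- The restricted inner product. -/
def bK (b : E →ₗ[ℝ] E →ₗ[ℝ] ℝ) (F : Submodule ℝ E) : F →ₗ[ℝ] F →ₗ[ℝ] ℝ :=
  b.compl₁₂ F.subtype F.subtype

/-- The squared cosine of the distance in polar coordinates. -/
noncomputable def FF (s t β L : ℝ) : ℝ :=
  cos s ^ 2 * cos t ^ 2 + 2 * (cos s * sin s * (cos t * sin t)) * β + sin s ^ 2 * sin t ^ 2 * L

/-- `(X, d)` is a model for the algebraic data. -/
def Mdl (b : E →ₗ[ℝ] E →ₗ[ℝ] ℝ) (B : E →ₗ[ℝ] E →ₗ[ℝ] E →ₗ[ℝ] E) {X : Type} (d : X → X → ℝ) :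
    Prop :=
  (∀ x y, d x y = 0 → x = y) ∧ ∃ κ : ℝ, 0 < κ ∧ ∃ β : ℝ → E → X,
    (∀ x, ∃ s ∈ Icc 0 (π / 2), ∃ u, b u u = 1 ∧ β s u = x) ∧
    ∀ s ∈ Icc 0 (π / 2), ∀ t ∈ Icc 0 (π / 2), ∀ u v, b u u = 1 → b v v = 1 →
      d (β s u) (β t v) = κ * arccos √(FF s t (b u v) (b (B u u v) v))

end

end Vale.Agent.P231
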