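import Vale.Agent.P231.K.GeoA

/-!
# The Hessian of the distance  (TASK)

`cov_varJ`: `σ = geo q n`, frame `X` (`exists_frame`), `Sys` (`exists_sys`), `J = varJ q n w`, `w = cmb 0 z a`.  As in `form_hb_core`: `cpt J t = S t *ᵥ z` for all `t` (`Sys.sol`), so `cpt1 J c = S1 c *ᵥ z` (uniqueness of derivatives),
the tangential parts are `c a` (`IsJacobi.gauss`) and `a` (its derivative).  `Sys.expl`, `pu_cmb`; compare both sides as `cmb`.
`hess`: `η t = lg q (γ t)` is differentiable at `0` (`Bl.contDiffAt_lg`), `η 0 = r • n₀`, `nrm n₀ = 2D/π`; near `0`, `lg (γ t) q = -vel (geo q (η t)) 1 = -r • vel (geo q (r⁻¹ • η t)) r` (`lg_flip`, `lg_spec`, `vel_geo_smul`), and `geo q (r⁻¹ • η t) r = γ t`.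
In the chart at `p`, `t ↦ g.st e q (r⁻¹ • η t) r` has derivative `fderiv (fun v => g.st e q v r) n₀ w` (`dep`), `w = r⁻¹ • η' 0`, whose components are `varJ q n₀ w e r = v` and `deriv (varJ ..) r` (`varJ_eq_dep`, `varJ_hasDerivAt_dep`).
Then the proof of `comp_hb_deriv` (`hasDerivAt_inner`, `chr_symm`) and `cov_varJ`; `n = -vel σ r`, `pu` is even in `u`.
Prefix helper names by `geo_b_`.
-/

namespace Vale.Agent.P231

open scoped ContDiff Manifold ENNReal Topology
open Vale.Agent.P255 Vale.Agent.P234 Set Filter Real Matrix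

variable {E M : Type*} [NormedAddCommGroup E] [NormedSpace ℝ E] [FiniteDimensional ℝ E]
  [TopologicalSpace M] [ChartedSpace E M] [IsManifold 𝓘(ℝ, E) ∞ M] [T2Space M] [CompactSpace M]
  [ConnectedSpace M] {g : Metric E M} {m k : ℕ} {D : ℝ}

/-- The Hessian of `r² / 2` applied to `v`, `n` being the unit normal. -/
noncomputable def hs (g : Metric E M) (D : ℝ) (x : M) (r : ℝ) (n v : E) : E :=
  nb g D x n v • n + (r * (cos r / sin r)) • (v - pu g D x n v) +
    (2 * r * (cos (2 * r) / sin (2 * r))) • (pu g D x n v - nb g D x n v • n)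

omit [ConnectedSpace M] in
theorem geo_b_deriv {x : M} {v : E} {Y A B : ℝ → E} (hY : IsPar g (g.geo x v) Y) {t : ℝ} {B' : E}
    {e : OpenPartialHomeomorph M E} (he : e ∈ atlas E M) (ht : g.geo x v t ∈ e.source)
    (hB : HasDerivAt B B' t) (hA : ∀ᶠ s in 𝓝 t, tr e (g.geo x v s) (A s) = B s) :
    HasDerivAt (fun s => g.ip (g.geo x v s) (A s) (Y s))
      (g.g e (e (g.geo x v t)) (B' + chr (g.g e) (e (g.geo x v t)) (deriv (e ∘ g.geo x v) t) (B t))
        (tr e (g.geo x v t) (Y t))) t := by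
  have hx := ((g.geo_isGeodesic x v).2 _ he t (mem_univ t) ht).1.hasDerivAt
  have h1 := (g.loc he).hasDerivAt_inner (x := e ∘ g.geo x v) (e.map_source ht) hx hB
    (hY _ he t ht)
  refine (h1.congr_of_eventuallyEq ?_).congr_deriv ?_
  · filter_upwards [(g.continuous_geo x v).continuousAt.preimage_mem_nhds
      (e.open_source.mem_nhds ht), hA] with s a b
    rw [ip_eq g he a, b]
    rfl
  · simp only [Function.comp_apply, neg_add_cancel, map_zero, add_zero]

omit [FiniteDimensional ℝ E] [IsManifold 𝓘(ℝ, E) ∞ M] [T2Space M] [CompactSpace M]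
  [ConnectedSpace M] in
theorem geo_b_cmb (γ : ℝ → M) (X : Fin m → ℝ → E) (t : ℝ) {y z z' : Fin m → ℝ} {c a β δ : ℝ}
    (h : c • y = β • (z - z') + δ • z') :
    c • cmb γ X t y a = (c * a) • vel E γ t +
      β • (cmb γ X t z (c * a) - cmb γ X t z' (c * a)) +
        δ • (cmb γ X t z' (c * a) - (c * a) • vel E γ t) := by
  have := congrArg (Fintype.linearCombination ℝ fun i => X i t) h
  rw [map_add, map_smul, map_smul, map_smul, map_sub] at this
  simp only [Fintype.linearCombination_apply] at this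
  simp only [cmb]
  linear_combination (norm := module) this

theorem cov_varJ (hR : Rig g D m) (hD : 0 < D) (hE : Module.finrank ℝ E = m + 1) {q : M} {n : E}
    (hn : nrm g q n = 2 * D / π) (w : E) {c : ℝ} (hc : c ∈ Ioo 0 (π / 2)) :
    c • g.cov (g.geo q n) (chartAt E (g.geo q n c)) (g.varJ q n w (chartAt E (g.geo q n c))) c =
      hs g D (g.geo q n c) c (vel E (g.geo q n) c) (g.varJ q n w (chartAt E (g.geo q n c)) c) := by
  have hl : 0 < 2 * D / π := by positivity
  have hv : n ≠ 0 := by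
    rintro rfl
    exact hl.ne (nrm_zero g q ▸ hn)
  obtain ⟨X, h⟩ := exists_frame g hE q hv
  obtain ⟨C, S, C1, S1, hS⟩ := h.exists_sys hE hv
  obtain ⟨Q, -, hQ, hRQ⟩ := hR q n hn X h
  obtain ⟨z, a, rfl⟩ : ∃ z a, w = cmb (g.geo q n) X 0 z a := ⟨_, _, h.expand hE hv 0 w⟩
  have hJ := g.varJ_isJacobi q n (cmb (g.geo q n) X 0 z a) univ
  have hA : ∀ t, g.varJ q n (cmb (g.geo q n) X 0 z a) (chartAt E (g.geo q n t)) t =
      cmb (g.geo q n) X t (S t *ᵥ z) (t * a) := fun t =>
    (form_hb_dexp g q n _ t).symm.trans (ray_h0 h hE hv hS t z a).2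
  generalize g.varJ q n (cmb (g.geo q n) X 0 z a) = J at hJ hA
  have ev : ∀ t, vel E (g.geo q n) t = cmb (g.geo q n) X t 0 1 := fun t => by simp [cmb]
  have iv : ∀ t y b, g.ip (g.geo q n t) (cmb (g.geo q n) X t y b) (vel E (g.geo q n) t) =
      b * g.ip q n n := fun t y b => by
    rw [ev, h.ip_cmb, dotProduct_zero, zero_add, mul_one]
  have hc' := chart_mem_atlas E (g.geo q n c)
  have h1 := geo_b_deriv (isPar_vel g q n) (A := fun s => J (chartAt E (g.geo q n s)) s) hc'
    (mem_chart_source E _) (hJ.2 _ hc' c (mem_univ c) (mem_chart_source E _)).1.hasDerivAt (by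
      filter_upwards [(g.continuous_geo q n).continuousAt.preimage_mem_nhds
        ((chartAt E (g.geo q n c)).open_source.mem_nhds (mem_chart_source E _))] with s a
      exact (hJ.1 _ (chart_mem_atlas E _) _ hc' s (mem_univ s) (mem_chart_source E _) a).symm)
  simp only [hA, iv, tr_self] at h1
  have h2 := h1.unique (((hasDerivAt_id c).mul_const a).mul_const (g.ip q n n))
  have hB : g.cov (g.geo q n) (chartAt E (g.geo q n c)) (J (chartAt E (g.geo q n c))) c =
      cmb (g.geo q n) X c (S1 c *ᵥ z) a := by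
    rw [h.expand hE hv c (g.cov _ _ _ _)]
    congr 1
    · funext i
      have d1 := h.cpt_deriv hJ c i
      simp only [cpt, hA, form_hc_ip h] at d1
      exact (d1.unique ((hS.dS c).mulVec (VD.const z c) i)).trans (by simp)
    · rw [div_eq_iff (ip_pos g q n hv).ne', Metric.cov, hA]
      exact h2.trans (by rw [one_mul])
  have hN : nb g D (g.geo q n c) (vel E (g.geo q n) c) (cmb (g.geo q n) X c (S c *ᵥ z) (c * a)) =
      c * a := by
    rw [nb_apply, ip_symm, iv, ← nrm_sq, hn]
    field_simp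
  obtain ⟨e1, e2⟩ := hS.expl hQ hRQ hc
  rw [hB, hA, hs, hN, pu_cmb hD hE hn h (hRQ c ⟨by linarith [hc.1, hc.2], hc.2⟩)]
  refine geo_b_cmb _ _ _ ?_
  have hy : Q *ᵥ Q *ᵥ z = Q *ᵥ z := by rw [mulVec_mulVec, hQ]
  have s1 := (sin_pos_of_pos_of_lt_pi hc.1 (by linarith [hc.1, hc.2])).ne'
  have s2 := (cos_pos_of_mem_Ioo ⟨by linarith [hc.1, hc.2], hc.2⟩).ne'
  simp only [e1, e2, add_mulVec, smul_mulVec, sub_mulVec, one_mulVec, mulVec_add, mulVec_smul,
    mulVec_sub, hy, sin_two_mul]
  funext i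
  simp only [Pi.add_apply, Pi.smul_apply, Pi.sub_apply, smul_eq_mul]
  field_simp
  ring

theorem hess (h : Bl g D) (hR : Rig g D m) (hE : Module.finrank ℝ E = m + 1) {p q : M} {v : E}
    {r : ℝ} (hr : r ∈ Ioo 0 (π / 2)) (hd : π / (2 * D) * rdist g p q = r) {X : ℝ → E}
    (hX : IsPar g (g.geo p v) X) :
    HasDerivAt (fun t => g.ip (g.geo p v t) (lg g (g.geo p v t) q) (X t))
      (-g.ip p (hs g D p r (r⁻¹ • lg g p q) v) (X 0)) 0 := by
  have hD := h.pos
  have r0 := hr.1
  have hq : rdist g q p = r * (2 * D / π) := by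
    rw [rdist_comm, ← hd]
    field_simp
  have hlt : rdist g q p < D := by
    rw [hq]
    exact (mul_lt_mul_of_pos_right hr.2 (by positivity)).trans_eq (by field_simp)
  have he := chart_mem_atlas E p
  have h0 := g.geo_zero p v
  have hs0 : g.geo p v 0 ∈ (chartAt E p).source := h0.symm ▸ mem_chart_source E p
  have hcont := (g.continuous_geo p v).continuousAt (x := 0)
  have ev1 := hcont.preimage_mem_nhds ((chartAt E p).open_source.mem_nhds hs0)
  have ev2 : ∀ᶠ t in 𝓝 (0 : ℝ), rdist g q (g.geo p v t) < D :=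
    ((continuous_rdist g).continuousAt.comp (continuousAt_const.prodMk hcont)).eventually_lt
      continuousAt_const (by simpa only [Function.comp_apply, h0] using hlt)
  have hx := ((g.geo_isGeodesic p v).2 _ he 0 (mem_univ 0) hs0).1.hasDerivAt
  rw [g.geo_deriv] at hx
  obtain ⟨n, hn⟩ : ∃ n : ℝ → E, n = fun t => r⁻¹ • lg g q (g.geo p v t) := ⟨_, rfl⟩
  have hη : ∀ t, lg g q (g.geo p v t) = r • n t := fun t => by
    rw [hn, smul_inv_smul₀ r0.ne']
  have dn : DifferentiableAt ℝ n 0 := by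
    have a1 := (h.contDiffAt_lg hlt he (mem_chart_source E p)).differentiableAt one_ne_zero
    rw [← show (chartAt E p ∘ g.geo p v) 0 = chartAt E p p from congrArg _ h0] at a1
    refine ((a1.comp 0 hx.differentiableAt).const_smul r⁻¹).congr_of_eventuallyEq ?_
    filter_upwards [ev1] with t a
    simp only [hn, Pi.smul_apply, Function.comp_apply, (chartAt E p).left_inv a]
  have hg : ∀ t, g.geo q (n t) r = g.geo p v t := fun t => by
    rw [← g.exp_smul, ← hη, (lg_spec g q _).1]
  have hp : g.geo q (n 0) r = p := (hg 0).trans h0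
  have hp' : g.geo q (n 0) r ∈ (chartAt E p).source := hp.symm ▸ mem_chart_source E p
  have hn0 : nrm g q (n 0) = 2 * D / π := by
    rw [hn, nrm_smul, (lg_spec g q _).2, h0, hq, abs_of_pos (inv_pos.2 r0),
      inv_mul_cancel_left₀ r0.ne']
  have fl : ∀ t, rdist g q (g.geo p v t) < D →
      lg g (g.geo p v t) q = -r • vel E (g.geo q (n t)) r := fun t ht => by
    have a1 := h.lg_flip ((lg_spec g q _).2.trans_lt ht)
    rwa [(lg_spec g q _).1, hη, vel_geo_smul, mul_one, ← neg_smul] at a1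
  have dF := ((g.dep q (n 0) r he hp').2.differentiableAt one_ne_zero).hasFDerivAt.comp_hasDerivAt 0
    dn.hasDerivAt
  have dF1 : HasDerivAt (fun t => (g.st (chartAt E p) q (n t) r).1)
      (fderiv ℝ (fun v => g.st (chartAt E p) q v r) (n 0) (deriv n 0)).1 0 :=
    (ContinuousLinearMap.fst ℝ E E).hasFDerivAt.comp_hasDerivAt 0 dF
  have dF2 : HasDerivAt (fun t => (g.st (chartAt E p) q (n t) r).2)
      (fderiv ℝ (fun v => g.st (chartAt E p) q v r) (n 0) (deriv n 0)).2 0 :=
    (ContinuousLinearMap.snd ℝ E E).hasFDerivAt.comp_hasDerivAt 0 dF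
  have e1 : g.varJ q (n 0) (deriv n 0) (chartAt E p) r = v := by
    rw [g.varJ_eq_dep q _ _ he hp']
    refine dF1.unique (hx.congr_of_eventuallyEq (Eventually.of_forall fun t => ?_))
    simp only [Function.comp_apply, Metric.st, hg]
  have h1 := geo_b_deriv hX (A := fun t => lg g (g.geo p v t) q) he hs0 (dF2.const_smul (-r)) (by
    filter_upwards [ev1, ev2] with t a b
    rw [fl t b, map_smul, ← hg t, ← (hasDerivAt_geo g he q (n t) (hg t ▸ a)).deriv]
    rfl)
  refine h1.congr_deriv ?_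
  have c1 := cov_varJ hR hD hE hn0 (deriv n 0) hr
  obtain ⟨B, -, hB⟩ := hR.pq hD hE p
  have e2 : r⁻¹ • lg g p q = -vel E (g.geo q (n 0)) r := by
    have := fl 0 (h0.symm ▸ hlt)
    rw [h0] at this
    rw [this, smul_smul, mul_neg, inv_mul_cancel₀ r0.ne', neg_one_smul]
  have e3 : hs g D p r (r⁻¹ • lg g p q) v = hs g D p r (vel E (g.geo q (n 0)) r) v := by
    simp only [e2, hs, ← hB, map_neg, LinearMap.neg_apply, neg_neg, neg_smul, smul_neg]
  rw [hp, e1, Metric.cov, e1, hp] at c1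
  rw [e3, ← c1, h0, tr_self, g.geo_deriv, (g.varJ_hasDerivAt_dep q _ _ he hp').1.deriv,
    (g.loc he).chr_symm (mem_chart_target E p) _ v, ← _root_.neg_apply, ← map_neg]
  refine congrArg (fun y => g.ip p y (X 0)) ?_
  simp only [Pi.smul_apply, Metric.st, ← chrL_apply, map_smul]
  module

end Vale.Agent.P231
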