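import Vale.Agent.P231.K.Defs

/-!
# The differential equation of the squared cosine of the distance  (TASK)

`ode_step`: `r = √ρ`, `r' = -a / r`, `β = a / r`, `λ = b / r²`; `β' = -cot r (1 - λ) - 2 cot 2r (λ - β²)`, `λ' = -2 cot r β (1 - λ)`; `HasDerivAt.congr_deriv`, `field_simp`, `sin_two_mul`, `cos_two_mul`.
`ode_glob`: on an interval where `f > 0`, `f + Λ`, `(f - c/2) cos 2t - f1/2 sin 2t` and `(f - c/2) sin 2t + f1/2 cos 2t` are constant, so `f = φ`, `f1 = φ'`, where `φ` is the right side.  If `f` has no zero we are done.  Otherwise let `t₁ > 0` be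
the first positive zero and `t₀ < 0` the last negative zero (periodicity, compactness); by continuity `φ t₁ = 0 = φ t₀` and `φ' t₁ = 0` (from `f1² ≤ 4 f`), so `φ t = κ sin² (t - t₁)` with `κ ≠ 0`, hence `t₀ ≤ t₁ - π`; `f = φ` on a full period.
Prefix helper names by `ode_`.
-/

namespace Vale.Agent.P231

open Real Set Filter Topology

theorem ode_step {ρ a b : ℝ → ℝ} {t r : ℝ} (hr : r ∈ Ioo 0 (π / 2)) (h0 : ρ t = r ^ 2)
    (h1 : HasDerivAt ρ (-2 * a t) t)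
    (h2 : HasDerivAt a (-((a t / r) ^ 2 + r * (cos r / sin r) * (1 - b t / r ^ 2) +
      2 * r * (cos (2 * r) / sin (2 * r)) * (b t / r ^ 2 - (a t / r) ^ 2))) t)
    (h3 : HasDerivAt b (-2 * r * (a t / r * (b t / r ^ 2) +
      r * (cos r / sin r) * (a t / r) * (1 - b t / r ^ 2))) t) :
    HasDerivAt (fun s => cos √(ρ s) ^ 2) (sin (2 * r) * (a t / r)) t ∧
    HasDerivAt (fun s => sin (2 * √(ρ s)) * (a s / √(ρ s)))
      (-2 * cos r ^ 2 + 2 * (sin r ^ 2 * (b t / r ^ 2))) t ∧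
    HasDerivAt (fun s => sin √(ρ s) ^ 2 * (b s / √(ρ s) ^ 2)) (-(sin (2 * r) * (a t / r))) t := by
  have hr0 : 0 < r := hr.1
  have hs : √(ρ t) = r := by rw [h0, sqrt_sq hr0.le]
  have hρ : ρ t ≠ 0 := by rw [h0]; positivity
  have hsin : sin r ≠ 0 := (sin_pos_of_pos_of_lt_pi hr0 (by linarith [hr.2, pi_pos])).ne'
  have hcos : cos r ≠ 0 := (cos_pos_of_mem_Ioo ⟨by linarith [pi_pos], hr.2⟩).ne'
  have d : HasDerivAt (fun s => √(ρ s)) (-(a t / r)) t := by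
    refine (h1.sqrt hρ).congr_deriv ?_
    rw [hs]
    field_simp
  have hs0 : √(ρ t) ≠ 0 := by rw [hs]; exact hr0.ne'
  refine ⟨(d.cos.fun_pow 2).congr_deriv ?_,
    ((d.const_mul 2).sin.fun_mul (h2.fun_div d hs0)).congr_deriv ?_,
    ((d.sin.fun_pow 2).fun_mul (h3.fun_div (d.fun_pow 2) (pow_ne_zero 2 hs0))).congr_deriv ?_⟩
  · rw [hs, sin_two_mul]
    norm_num
    ring
  · rw [hs, sin_two_mul, cos_two_mul']
    field_simp
    ring
  · rw [hs, sin_two_mul]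
    norm_num
    field_simp
    ring

/-- The right side. -/
noncomputable def ode_phi (A B C t : ℝ) : ℝ := A * cos t ^ 2 + B * (cos t * sin t) + C * sin t ^ 2

/-- Its derivative. -/
noncomputable def ode_psi (A B C t : ℝ) : ℝ :=
  2 * (C - A) * (cos t * sin t) + B * (cos t ^ 2 - sin t ^ 2)

theorem ode_d1 (A B C t : ℝ) : HasDerivAt (ode_phi A B C) (ode_psi A B C t) t := by
  refine (((((hasDerivAt_cos t).fun_pow 2).const_mul A).fun_add
    (((hasDerivAt_cos t).fun_mul (hasDerivAt_sin t)).const_mul B)).fun_add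
    (((hasDerivAt_sin t).fun_pow 2).const_mul C)).congr_deriv ?_
  rw [ode_psi]
  norm_num
  ring

theorem ode_d2 (A B C t : ℝ) :
    HasDerivAt (ode_psi A B C) (-2 * ode_phi A B C t + 2 * (A + C - ode_phi A B C t)) t := by
  refine ((((hasDerivAt_cos t).fun_mul (hasDerivAt_sin t)).const_mul (2 * (C - A))).fun_add
    ((((hasDerivAt_cos t).fun_pow 2).fun_sub ((hasDerivAt_sin t).fun_pow 2)).const_mul
      B)).congr_deriv ?_
  rw [ode_phi]
  norm_num
  linear_combination (2 * (A + C)) * sin_sq_add_cos_sq t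

theorem ode_add (A B C t u : ℝ) : ode_phi A B C (t + u) = ode_phi A B C t * cos u ^ 2 +
    ode_psi A B C t * (cos u * sin u) + (A + C - ode_phi A B C t) * sin u ^ 2 := by
  simp only [ode_phi, ode_psi, cos_add, sin_add]
  linear_combination (sin u ^ 2 * (A + C)) * sin_sq_add_cos_sq t

theorem ode_int {f f1 Λ : ℝ → ℝ} {I : Set ℝ} (hI : IsOpen I) (hI' : IsPreconnected I)
    (h0 : (0 : ℝ) ∈ I) (hd : ∀ t ∈ I, HasDerivAt f (f1 t) t ∧
      HasDerivAt f1 (-2 * f t + 2 * Λ t) t ∧ HasDerivAt Λ (-f1 t) t) {t : ℝ} (ht : t ∈ I) :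
    f t = ode_phi (f 0) (f1 0) (Λ 0) t ∧ f1 t = ode_psi (f 0) (f1 0) (Λ 0) t := by
  have d : ∀ s ∈ I, HasDerivAt (fun s => (f1 s - ode_psi (f 0) (f1 0) (Λ 0) s) ^ 2 +
      2 * (f s - ode_phi (f 0) (f1 0) (Λ 0) s) ^ 2 +
      2 * (Λ s - (f 0 + Λ 0 - ode_phi (f 0) (f1 0) (Λ 0) s)) ^ 2) 0 s := by
    intro s hs
    obtain ⟨d1, d2, d3⟩ := hd s hs
    refine ((((d2.fun_sub (ode_d2 _ _ _ s)).fun_pow 2).fun_add
      (((d1.fun_sub (ode_d1 _ _ _ s)).fun_pow 2).const_mul 2)).fun_add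
      (((d3.fun_sub ((ode_d1 _ _ _ s).const_sub (f 0 + Λ 0))).fun_pow 2).const_mul
        2)).congr_deriv ?_
    norm_num
    ring
  have e := hI.is_const_of_deriv_eq_zero hI'
    (fun s hs => (d s hs).differentiableAt.differentiableWithinAt) (fun s hs => (d s hs).deriv) ht h0
  have e1 : ode_phi (f 0) (f1 0) (Λ 0) 0 = f 0 := by simp [ode_phi]
  have e2 : ode_psi (f 0) (f1 0) (Λ 0) 0 = f1 0 := by simp [ode_psi]
  simp only [e1, e2] at e
  have q1 := sq_nonneg (f1 t - ode_psi (f 0) (f1 0) (Λ 0) t)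
  have q2 := sq_nonneg (f t - ode_phi (f 0) (f1 0) (Λ 0) t)
  have q3 := sq_nonneg (Λ t - (f 0 + Λ 0 - ode_phi (f 0) (f1 0) (Λ 0) t))
  exact ⟨sub_eq_zero.1 (pow_eq_zero_iff two_ne_zero |>.1 (by linarith)),
    sub_eq_zero.1 (pow_eq_zero_iff two_ne_zero |>.1 (by linarith))⟩

theorem ode_glob {f f1 Λ : ℝ → ℝ} (hc : Continuous f) (hp : ∀ t, f (t + π) = f t)
    (hn : ∀ t, 0 ≤ f t) (h0 : 0 < f 0) (hd : ∀ t, 0 < f t → HasDerivAt f (f1 t) t ∧
      HasDerivAt f1 (-2 * f t + 2 * Λ t) t ∧ HasDerivAt Λ (-f1 t) t ∧ f1 t ^ 2 ≤ 4 * f t) (t : ℝ) :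
    f t = f 0 * cos t ^ 2 + f1 0 * (cos t * sin t) + Λ 0 * sin t ^ 2 := by
  have hd' := fun t ht => (⟨(hd t ht).1, (hd t ht).2.1, (hd t ht).2.2.1⟩ : HasDerivAt f (f1 t) t ∧
    HasDerivAt f1 (-2 * f t + 2 * Λ t) t ∧ HasDerivAt Λ (-f1 t) t)
  by_cases hz : ∀ s, 0 < f s
  · exact (ode_int isOpen_univ isPreconnected_univ (mem_univ _) (fun s _ => hd' s (hz s))
      (mem_univ t)).1
  obtain ⟨z, hz⟩ := not_forall.1 hz
  have hz0 : f z = 0 := le_antisymm (not_lt.1 hz) (hn z)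
  have hP : Function.Periodic f π := hp
  have hcl : IsClosed {s | f s = 0} := isClosed_eq hc continuous_const
  obtain ⟨z1, hz1, e1⟩ := hP.exists_mem_Ico pi_pos z 0
  obtain ⟨z0, hz0', e0⟩ := hP.exists_mem_Ico pi_pos z (-π)
  obtain ⟨t1, ⟨ht1, ft1⟩, m1⟩ := ((isCompact_Icc (a := 0) (b := π)).inter_right hcl).exists_isLeast
    ⟨z1, ⟨hz1.1, by linarith [hz1.2]⟩, e1.symm.trans hz0⟩
  obtain ⟨t0, ⟨ht0, ft0⟩, m0⟩ :=
    ((isCompact_Icc (a := -π) (b := 0)).inter_right hcl).exists_isGreatest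
      ⟨z0, ⟨hz0'.1, by linarith [hz0'.2]⟩, e0.symm.trans hz0⟩
  have ft1' : f t1 = 0 := ft1
  have ft0' : f t0 = 0 := ft0
  have p1 : 0 < t1 := lt_of_le_of_ne ht1.1 fun e => h0.ne' ((congrArg f e).trans ft1')
  have p0 : t0 < 0 := lt_of_le_of_ne ht0.2 fun e => h0.ne' ((congrArg f e).symm.trans ft0')
  have hpos : ∀ s ∈ Ioo t0 t1, 0 < f s := by
    intro s hs
    refine lt_of_le_of_ne (hn s) fun e => ?_
    rcases le_total 0 s with h | h
    · have := m1 ⟨⟨h, hs.2.le.trans ht1.2⟩, e.symm⟩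
      linarith [hs.2]
    · have := m0 ⟨⟨ht0.1.trans hs.1.le, h⟩, e.symm⟩
      linarith [hs.1]
  have hI := fun s (hs : s ∈ Ioo t0 t1) => ode_int isOpen_Ioo isPreconnected_Ioo ⟨p0, p1⟩
    (fun s hs => hd' s (hpos s hs)) hs
  set φ := ode_phi (f 0) (f1 0) (Λ 0) with hφ
  set ψ := ode_psi (f 0) (f1 0) (Λ 0) with hψ
  have cφ : Continuous φ := continuous_iff_continuousAt.2 fun s => (ode_d1 _ _ _ s).continuousAt
  have cψ : Continuous ψ := continuous_iff_continuousAt.2 fun s => (ode_d2 _ _ _ s).continuousAt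
  have hne : t0 ≠ t1 := (p0.trans p1).ne
  have k1 : ∀ s ∈ Icc t0 t1, f s = φ s := by
    rw [← closure_Ioo hne]
    exact fun s hs => (isClosed_eq hc cφ).closure_subset_iff.2 (fun s hs => (hI s hs).1) hs
  have k2 : ∀ s ∈ Icc t0 t1, ψ s ^ 2 ≤ 4 * φ s := by
    rw [← closure_Ioo hne]
    refine fun s hs => (isClosed_le (cψ.pow 2) (cφ.const_mul 4)).closure_subset_iff.2
      (fun s hs => ?_) hs
    have := (hd s (hpos s hs)).2.2.2
    rw [(hI s hs).1, (hI s hs).2] at this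
    exact this
  have r1 : t1 ∈ Icc t0 t1 := right_mem_Icc.2 (p0.trans p1).le
  have r0 : t0 ∈ Icc t0 t1 := left_mem_Icc.2 (p0.trans p1).le
  have a1 : φ t1 = 0 := (k1 t1 r1).symm.trans ft1'
  have a0 : φ t0 = 0 := (k1 t0 r0).symm.trans ft0'
  have a2 : ψ t1 = 0 := by
    have := k2 t1 r1
    rw [a1, mul_zero] at this
    exact pow_eq_zero_iff two_ne_zero |>.1 (le_antisymm this (sq_nonneg _))
  have a3 : ∀ s, φ s = (f 0 + Λ 0) * sin (s - t1) ^ 2 := by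
    intro s
    have := ode_add (f 0) (f1 0) (Λ 0) t1 (s - t1)
    rw [← hφ, ← hψ, a1, a2, add_sub_cancel] at this
    rw [this]
    ring
  have a4 : f 0 + Λ 0 ≠ 0 := by
    intro e
    have := k1 0 ⟨p0.le, p1.le⟩
    rw [a3, e, zero_mul] at this
    exact h0.ne' this
  have a5 : t0 ≤ t1 - π := by
    by_contra hh
    have h1 := sin_neg_of_neg_of_neg_pi_lt (x := t0 - t1) (by linarith) (by linarith)
    rw [a3] at a0
    exact h1.ne (pow_eq_zero_iff two_ne_zero |>.1 ((mul_eq_zero.1 a0).resolve_left a4))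
  have hP2 : Function.Periodic (fun s => f s - φ s) π := fun s => by
    simp only [hp, a3]
    rw [show s + π - t1 = s - t1 + π by ring, sin_add_pi, neg_sq]
  obtain ⟨y, hy, ey⟩ := hP2.exists_mem_Ico pi_pos t (t1 - π)
  rw [k1 y ⟨a5.trans hy.1, by linarith [hy.2]⟩, sub_self] at ey
  exact sub_eq_zero.1 ey

end Vale.Agent.P231
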