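import Vale.Agent.P231.K.GeoB
import Vale.Agent.P231.K.Ode

/-!
# The differential equation along a geodesic  (TASK)

`geo_zero`: `Z t = lg (γ t) q`, frame `X` along `γ`, `y t i = ip (Z t) (X i t)`, `a t = nb (Z t) (vel t)`; `Z t = cmb t (y t) (a t)` (`Fr.expand`), `nb Z Z = κ y ⬝ y + a²`, and for `|t| < π/2`, `nb (pu vel Z) Z = κ y ⬝ Q y + a²` (`pu_cmb`, `ip_cmb`), `κ = (π/(2D))²`.
`hess` for `X i` and for `vel` (`isPar_vel`) gives the derivatives `-2 nb Z H`, `-nb H v`, `-2 nb (pu v Z) H`, `H = hs ..` (`ip_cmb`, `expand` again); evaluate them with `Rig.pq` (`s3`, `sa`, `sw`, `PQ.cross`) and apply `ode_step`.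
`geo_ode`: rebase with `geo_add`, `bl_hb_vel_add`, `HasDerivAt.comp_sub_const`; the bound by Cauchy-Schwarz (`abs_ip_le`) and `sin² ≤ 1`.
Prefix helper names by `geo_c_`.
-/

namespace Vale.Agent.P231

open scoped ContDiff Manifold ENNReal Topology
open Vale.Agent.P255 Vale.Agent.P234 Set Filter Real Matrix

variable {E M : Type*} [NormedAddCommGroup E] [NormedSpace ℝ E] [FiniteDimensional ℝ E]
  [TopologicalSpace M] [ChartedSpace E M] [IsManifold 𝓘(ℝ, E) ∞ M] [T2Space M] [CompactSpace M]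
  [ConnectedSpace M] {g : Metric E M} {m k : ℕ} {D : ℝ}

/-- The normalised distance. -/
noncomputable def rr (g : Metric E M) (D : ℝ) (x q : M) : ℝ := π / (2 * D) * rdist g x q

/-- The first derivative. -/
noncomputable def fa (g : Metric E M) (D : ℝ) (q x : M) (v : E) : ℝ :=
  sin (2 * rr g D x q) * (nb g D x (lg g x q) v / rr g D x q)

/-- The third unknown. -/
noncomputable def fb (g : Metric E M) (D : ℝ) (q x : M) (v : E) : ℝ :=
  sin (rr g D x q) ^ 2 * (nb g D x (pu g D x v (lg g x q)) (lg g x q) / rr g D x q ^ 2)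

theorem geo_c_alg {F : Type*} [AddCommGroup F] [Module ℝ F] {b : F →ₗ[ℝ] F →ₗ[ℝ] ℝ}
    {B : F →ₗ[ℝ] F →ₗ[ℝ] F →ₗ[ℝ] F} (h : PQ b B) {n v H : F} (hn : b n n = 1) (hv : b v v = 1)
    {c1 c2 : ℝ} (hH : H = b n v • n + c1 • (v - B n n v) + c2 • (B n n v - b n v • n)) :
    b n H = b n v ∧
      b H v = b n v ^ 2 + c1 * (1 - b (B v v n) n) + c2 * (b (B v v n) n - b n v ^ 2) ∧
      b (B v v n) H = b n v * b (B v v n) n + c1 * b n v * (1 - b (B v v n) n) := by
  have e1 : b n (B n n v) = b n v := by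
    rw [h.bs, h.sa, h.s3, hn, one_smul]
  have e2 : b (B n n v) v = b (B v v n) n := h.sw n v
  have e3 : b (B v v n) v = b n v := by
    rw [h.sa, h.s3, hv, one_smul, h.bs]
  have e4 : b (B v v n) (B n n v) = b n v * b (B v v n) n := by
    rw [h.bs, h.cross, e2]
  subst hH
  simp only [map_add, map_sub, map_smul, LinearMap.add_apply, LinearMap.sub_apply,
    LinearMap.smul_apply, smul_eq_mul, e1, e2, e3, e4, hn, hv]
  refine ⟨by ring, by ring, by ring⟩

theorem geo_c_der {κ α : ℝ} {y : ℝ → Fin m → ℝ} {a : ℝ → ℝ} {η : Fin m → ℝ} {Q : Mat m}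
    (hQ : Qᵀ = Q) (hy : ∀ i, HasDerivAt (fun t => y t i) (-η i) 0) (ha : HasDerivAt a (-α) 0) :
    HasDerivAt (fun t => κ * ((Q *ᵥ y t) ⬝ᵥ y t) + a t * a t)
      (-2 * (κ * ((Q *ᵥ y 0) ⬝ᵥ η) + a 0 * α)) 0 := by
  have h1 : HasDerivAt (fun t => ∑ i, (∑ j, Q i j * y t j) * y t i)
      (∑ i, ((∑ j, Q i j * -η j) * y 0 i + (∑ j, Q i j * y 0 j) * -η i)) 0 :=
    HasDerivAt.fun_sum fun i _ =>
      (HasDerivAt.fun_sum fun j _ => (hy j).const_mul (Q i j)).fun_mul (hy i)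
  have h2 : ∑ i, ((∑ j, Q i j * -η j) * y 0 i + (∑ j, Q i j * y 0 j) * -η i) =
      (Q *ᵥ (-η)) ⬝ᵥ y 0 + (Q *ᵥ y 0) ⬝ᵥ (-η) := Finset.sum_add_distrib
  have h3 : (Q *ᵥ η) ⬝ᵥ y 0 = (Q *ᵥ y 0) ⬝ᵥ η := by
    rw [dotProduct_comm, dotProduct_mulVec, ← mulVec_transpose, hQ]
  rw [h2, mulVec_neg, neg_dotProduct, dotProduct_neg, h3] at h1
  exact ((h1.const_mul κ).fun_add (ha.fun_mul ha)).congr_deriv (by ring)

theorem geo_c_rr (hD : 0 < D) (x q : M) : rr g D x q = √(nb g D x (lg g x q) (lg g x q)) := by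
  rw [sqrt_nb hD, (lg_spec g x q).2, rr]

theorem geo_ode_zero (h : Bl g D) (hR : Rig g D m) (hE : Module.finrank ℝ E = m + 1) {p q : M}
    {v : E} (hv : nrm g p v = 2 * D / π) (hr : rr g D p q ∈ Ioo 0 (π / 2)) :
    HasDerivAt (fun s => cos (rr g D (g.geo p v s) q) ^ 2) (fa g D q p v) 0 ∧
    HasDerivAt (fun s => fa g D q (g.geo p v s) (vel E (g.geo p v) s))
      (-2 * cos (rr g D p q) ^ 2 + 2 * fb g D q p v) 0 ∧
    HasDerivAt (fun s => fb g D q (g.geo p v s) (vel E (g.geo p v) s)) (-fa g D q p v) 0 := by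
  have hD := h.pos
  have hv1 : nb g D p v v = 1 := (nb_unit hD).2 hv
  have hv0 : v ≠ 0 := by
    rintro rfl
    simp at hv1
  obtain ⟨X, hX⟩ := exists_frame g hE p hv0
  obtain ⟨Q, hQ, -, hRQ⟩ := hR p v hv X hX
  obtain ⟨B, hB, hBp⟩ := hR.pq hD hE p
  have hk : (π / (2 * D)) ^ 2 * g.ip p v v = 1 := hv1
  have h0 : g.geo p v 0 = p := g.geo_zero p v
  have h0' : vel E (g.geo p v) 0 = v := vel_geo_zero g p v
  have ex : ∀ t w, w = cmb (g.geo p v) X t (fun i => g.ip (g.geo p v t) w (X i t))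
      (nb g D (g.geo p v t) w (vel E (g.geo p v) t)) := by
    intro t w
    have e : nb g D (g.geo p v t) w (vel E (g.geo p v) t) =
        g.ip (g.geo p v t) w (vel E (g.geo p v) t) / g.ip p v v := by
      rw [nb_apply, eq_div_iff (ip_pos g p v hv0).ne']
      linear_combination g.ip (g.geo p v t) w (vel E (g.geo p v) t) * hk
    rw [e]
    exact hX.expand hE hv0 t w
  have nbc : ∀ t z z' a a', nb g D (g.geo p v t) (cmb (g.geo p v) X t z a)
      (cmb (g.geo p v) X t z' a') = (π / (2 * D)) ^ 2 * (z ⬝ᵥ z') + a * a' := by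
    intro t z z' a a'
    rw [nb_apply, hX.ip_cmb]
    linear_combination (a * a') * hk
  obtain ⟨r, hr'⟩ : ∃ r, r = rr g D p q := ⟨_, rfl⟩
  rw [← hr'] at hr
  obtain ⟨H, hH⟩ : ∃ H, H = hs g D p r (r⁻¹ • lg g p q) v := ⟨_, rfl⟩
  have hy : ∀ i, HasDerivAt (fun t => g.ip (g.geo p v t) (lg g (g.geo p v t) q) (X i t))
      (-g.ip (g.geo p v 0) H (X i 0)) 0 := fun i => by
    rw [h0, hH]
    exact hess h hR hE hr hr'.symm (hX.par i)
  have ha : HasDerivAt (fun t => nb g D (g.geo p v t) (lg g (g.geo p v t) q) (vel E (g.geo p v) t))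
      (-nb g D (g.geo p v 0) H (vel E (g.geo p v) 0)) 0 := by
    rw [h0, hH]
    exact ((hess h hR hE hr hr'.symm (isPar_vel g p v)).const_mul
      ((π / (2 * D)) ^ 2)).congr_deriv (by rw [nb_apply]; ring)
  have d1 := geo_c_der (κ := (π / (2 * D)) ^ 2)
    (y := fun t i => g.ip (g.geo p v t) (lg g (g.geo p v t) q) (X i t)) transpose_one hy ha
  have d3 := geo_c_der (κ := (π / (2 * D)) ^ 2)
    (y := fun t i => g.ip (g.geo p v t) (lg g (g.geo p v t) q) (X i t)) hQ hy ha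
  have i0 : (0 : ℝ) ∈ Ioo (-(π / 2)) (π / 2) := ⟨by linarith [pi_pos], by linarith [pi_pos]⟩
  rw [← nbc, one_mulVec, ← ex, ← ex] at d1
  have d1' : HasDerivAt (fun t => nb g D (g.geo p v t) (lg g (g.geo p v t) q)
      (lg g (g.geo p v t) q)) _ 0 := d1.congr_of_eventuallyEq (Eventually.of_forall fun t => by
    beta_reduce
    rw [← nbc, one_mulVec, ← ex])
  rw [← nbc, ← pu_cmb hD hE hv hX (hRQ 0 i0), ← ex, ← ex] at d3
  have d3' : HasDerivAt (fun t => nb g D (g.geo p v t) (pu g D (g.geo p v t) (vel E (g.geo p v) t)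
      (lg g (g.geo p v t) q)) (lg g (g.geo p v t) q)) _ 0 := d3.congr_of_eventuallyEq (by
    filter_upwards [isOpen_Ioo.mem_nhds i0] with t ht
    rw [← nbc, ← pu_cmb hD hE hv hX (hRQ t ht), ← ex])
  have hrr : nb g D p (lg g p q) (lg g p q) = r ^ 2 := by
    rw [hr', geo_c_rr hD, sq_sqrt (hB.nonneg _)]
  have hr0 : r ≠ 0 := hr.1.ne'
  obtain ⟨n, hn⟩ : ∃ n, n = r⁻¹ • lg g p q := ⟨_, rfl⟩
  have hZ : lg g p q = r • n := by rw [hn, smul_smul, mul_inv_cancel₀ hr0, one_smul]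
  have hn1 : nb g D p n n = 1 := by
    rw [hZ] at hrr
    simp only [map_smul, LinearMap.smul_apply, smul_eq_mul] at hrr
    exact mul_left_cancel₀ (mul_ne_zero hr0 hr0) (by linear_combination hrr)
  rw [← hn, hs, ← hBp] at hH
  obtain ⟨k1, k2, k3⟩ := geo_c_alg hB hn1 hv1 hH
  have ea : nb g D p (lg g p q) v / r = nb g D p n v := by
    rw [hZ]
    simp only [map_smul, LinearMap.smul_apply, smul_eq_mul]
    field_simp
  have eb : nb g D p (pu g D p v (lg g p q)) (lg g p q) / r ^ 2 = nb g D p (B v v n) n := by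
    rw [← hBp, hZ]
    simp only [map_smul, LinearMap.smul_apply, smul_eq_mul]
    field_simp
  have key := ode_step (r := r) (t := 0)
    (ρ := fun t => nb g D (g.geo p v t) (lg g (g.geo p v t) q) (lg g (g.geo p v t) q))
    (a := fun t => nb g D (g.geo p v t) (lg g (g.geo p v t) q) (vel E (g.geo p v) t))
    (b := fun t => nb g D (g.geo p v t) (pu g D (g.geo p v t) (vel E (g.geo p v) t)
      (lg g (g.geo p v t) q)) (lg g (g.geo p v t) q)) hr (by simp only [h0, hrr])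
    (d1'.congr_deriv (by
      simp only [h0, h0', hZ, map_smul, LinearMap.smul_apply, smul_eq_mul, k1]))
    (ha.congr_deriv (by simp only [h0, h0', ea, eb, k2]))
    (d3'.congr_deriv (by
      simp only [h0, h0', ea, eb]
      rw [← hBp, hZ]
      simp only [map_smul, LinearMap.smul_apply, smul_eq_mul, k3]
      ring))
  simp only [h0, h0', ← geo_c_rr hD] at key
  simp only [fa, fb, ← hr']
  exact key

theorem geo_ode (h : Bl g D) (hR : Rig g D m) (hE : Module.finrank ℝ E = m + 1) {p q : M}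
    {v : E} (hv : nrm g p v = 2 * D / π) {t : ℝ} (hr : rr g D (g.geo p v t) q ∈ Ioo 0 (π / 2)) :
    HasDerivAt (fun s => cos (rr g D (g.geo p v s) q) ^ 2)
      (fa g D q (g.geo p v t) (vel E (g.geo p v) t)) t ∧
    HasDerivAt (fun s => fa g D q (g.geo p v s) (vel E (g.geo p v) s))
      (-2 * cos (rr g D (g.geo p v t) q) ^ 2 + 2 * fb g D q (g.geo p v t) (vel E (g.geo p v) t)) t ∧
    HasDerivAt (fun s => fb g D q (g.geo p v s) (vel E (g.geo p v) s))
      (-fa g D q (g.geo p v t) (vel E (g.geo p v) t)) t ∧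
    fa g D q (g.geo p v t) (vel E (g.geo p v) t) ^ 2 ≤ 4 * cos (rr g D (g.geo p v t) q) ^ 2 := by
  have hD := h.pos
  have hw : nrm g (g.geo p v t) (vel E (g.geo p v) t) = 2 * D / π := by rw [nrm_vel_geo, hv]
  obtain ⟨k1, k2, k3⟩ := geo_ode_zero h hR hE hw hr
  simp only [g.geo_add, bl_hb_vel_add] at k1 k2 k3
  have sh : ∀ {f : ℝ → ℝ} {c : ℝ}, HasDerivAt (fun s => f (t + s)) c 0 → HasDerivAt f c t := by
    intro f c hf
    have h1 : HasDerivAt (fun s => f (t + s)) c (t - t) := by rwa [sub_self]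
    simpa using h1.comp_sub_const t t
  refine ⟨sh (f := fun s => cos (rr g D (g.geo p v s) q) ^ 2) k1,
    sh (f := fun s => fa g D q (g.geo p v s) (vel E (g.geo p v) s)) k2,
    sh (f := fun s => fb g D q (g.geo p v s) (vel E (g.geo p v) s)) k3, ?_⟩
  generalize vel E (g.geo p v) t = w at hw
  generalize g.geo p v t = x at hw hr
  have h1 : |nb g D x (lg g x q) w| ≤ rr g D x q := by
    have h2 := abs_ip_le g x (lg g x q) w
    rw [hw, (lg_spec g x q).2] at h2
    rw [nb_apply, abs_mul, abs_of_nonneg (sq_nonneg _)]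
    refine (mul_le_mul_of_nonneg_left h2 (sq_nonneg _)).trans_eq ?_
    rw [rr]
    field_simp
  have h2 : (nb g D x (lg g x q) w / rr g D x q) ^ 2 ≤ 1 := by
    rw [div_pow, div_le_one (pow_pos hr.1 2)]
    exact sq_le_sq.2 (h1.trans (le_abs_self _))
  rw [fa, sin_two_mul]
  have h3 := mul_le_mul h2 (sin_sq_le_one (rr g D x q)) (sq_nonneg _) zero_le_one
  nlinarith [mul_le_mul_of_nonneg_left h3 (sq_nonneg (cos (rr g D x q)))]

end Vale.Agent.P231
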