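import Vale.Agent.P231.K.GeoC

/-!
# The distance formula  (TASK)

`rr_geo`: for `|t| ≤ π/2`, `rr p (geo p v t) = |t|` (`Bl.rdist_exp`, `exp_smul`); reduce `t` modulo `π` (`Per`, `Function.Periodic`, `toIocMod` or `round`); rebase with `geo_add`.
`dist_formula` for `s < π/2`: `q = geo p u s`, `lg p q = s • u` (`Bl.lg_exp`).  If `geo p v t₀ = q` for some `t₀`, reduce `t₀` to `[-π/2, π/2]`; then `|t₀| = s` and `t₀ • v = s • u` (`lg_exp`), so `s = 0` or `u = ± v`, and `rr_geo` gives the formula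
(`nb (pu v v) v = 1`: `riem v v v = 0`).  Otherwise `rr > 0` along the geodesic (`rdist = 0` forces equality: `lg_spec`, `nrm_eq_zero`, `exp_zero`), `rr ≤ π/2` (`Bl.le`), and `ode_glob` applies with `geo_ode` (continuity from `rdist_triangle`, `rdist_geo_le`);
`sw` from `Rig.pq` exchanges `u` and `v`.  For `s = π/2` pass to the limit.
Prefix helper names by `geo_d_`.
-/

namespace Vale.Agent.P231

open scoped ContDiff Manifold ENNReal Topology
open Vale.Agent.P255 Vale.Agent.P234 Set Filter Real Matrix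

variable {E M : Type*} [NormedAddCommGroup E] [NormedSpace ℝ E] [FiniteDimensional ℝ E]
  [TopologicalSpace M] [ChartedSpace E M] [IsManifold 𝓘(ℝ, E) ∞ M] [T2Space M] [CompactSpace M]
  [ConnectedSpace M] {g : Metric E M} {m k : ℕ} {D : ℝ}

theorem geo_d_nrm (h : Bl g D) {p : M} {v : E} (hv : nrm g p v = 2 * D / π) (t : ℝ) :
    nrm g p (t • v) = |t| / (π / 2) * D := by
  rw [nrm_smul, hv]
  field_simp

theorem geo_d_abs (h : Bl g D) {p : M} {v : E} (hv : nrm g p v = 2 * D / π) {t : ℝ}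
    (ht : |t| ≤ π / 2) : rr g D p (g.geo p v t) = |t| := by
  have hD := h.pos
  have h1 : nrm g p (t • v) ≤ D := by
    rw [geo_d_nrm h hv]
    exact mul_le_of_le_one_left hD.le ((div_le_one (by positivity)).2 ht)
  rw [rr, ← g.exp_smul, h.rdist_exp h1, geo_d_nrm h hv]
  field_simp

theorem geo_d_lg (h : Bl g D) {p : M} {v : E} (hv : nrm g p v = 2 * D / π) {t : ℝ}
    (ht : |t| < π / 2) : lg g p (g.geo p v t) = t • v := by
  rw [← g.exp_smul]
  refine h.lg_exp ?_
  rw [geo_d_nrm h hv]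
  exact mul_lt_of_lt_one_left h.pos ((div_lt_one (by positivity)).2 ht)

theorem geo_d_red (hP : Per g D) {p : M} {v : E} (hv : nrm g p v = 2 * D / π) (t : ℝ) :
    ∃ t', |t'| ≤ π / 2 ∧ g.geo p v t' = g.geo p v t ∧ cos t' ^ 2 = cos t ^ 2 := by
  have h1 : Function.Periodic (g.geo p v) π := hP p v hv
  have h2 : Function.Periodic (fun t => cos t ^ 2) π := fun t => by
    simp only [cos_add_pi, neg_sq]
  refine ⟨t - round (t / π) * π, ?_, h1.sub_int_mul_eq _, h2.sub_int_mul_eq _⟩
  have h3 : t - round (t / π) * π = (t / π - round (t / π)) * π := by field_simp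
  rw [h3, abs_mul, abs_of_pos pi_pos]
  have := abs_sub_round (t / π)
  nlinarith [pi_pos]

theorem geo_d_comm (x y : M) : rr g D x y = rr g D y x := by
  rw [rr, rr, rdist_comm]

theorem geo_d_cont {a b : ℝ → M} (ha : Continuous a) (hb : Continuous b) :
    Continuous fun t => cos (rr g D (a t) (b t)) ^ 2 :=
  (continuous_cos.comp (continuous_const.mul ((continuous_rdist g).comp (ha.prodMk hb)))).pow 2

theorem rr_geo (h : Bl g D) (hP : Per g D) {p : M} {v : E} (hv : nrm g p v = 2 * D / π)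
    (a t : ℝ) : cos (rr g D (g.geo p v t) (g.geo p v a)) ^ 2 = cos (t - a) ^ 2 := by
  have h1 : nrm g (g.geo p v a) (vel E (g.geo p v) a) = 2 * D / π := by rw [nrm_vel_geo, hv]
  obtain ⟨t', h2, h3, h4⟩ := geo_d_red hP h1 (t - a)
  have h5 : g.geo p v t = g.geo (g.geo p v a) (vel E (g.geo p v) a) t' := by
    rw [h3, g.geo_add, add_sub_cancel]
  rw [geo_d_comm, h5, geo_d_abs h h1 h2, cos_abs, h4]

theorem geo_d_lt (h : Bl g D) (hP : Per g D) (hR : Rig g D m)
    (hE : Module.finrank ℝ E = m + 1) {p : M} {u v : E} (hu : nrm g p u = 2 * D / π)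
    (hv : nrm g p v = 2 * D / π) {s : ℝ} (hs : s ∈ Ico 0 (π / 2)) (t : ℝ) :
    cos (rr g D (g.geo p u s) (g.geo p v t)) ^ 2 =
      FF s t (nb g D p u v) (nb g D p (pu g D p u v) v) := by
  have hD := h.pos
  obtain ⟨B, hB, hBp⟩ := hR.pq hD hE p
  have hs' : |s| < π / 2 := by rw [abs_of_nonneg hs.1]; exact hs.2
  have hr : rr g D p (g.geo p u s) = s := by rw [geo_d_abs h hu hs'.le, abs_of_nonneg hs.1]
  have hl := geo_d_lg h hu hs'
  have hvv : nb g D p v v = 1 := (nb_unit hD).2 hv
  have h3 : B v v v = v := by rw [hB.s3, hvv, one_smul]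
  rw [geo_d_comm, ← hBp]
  by_cases hq : ∃ t₀, g.geo p v t₀ = g.geo p u s
  · obtain ⟨t₁, ht₁⟩ := hq
    obtain ⟨t₀, h0, h1, -⟩ := geo_d_red hP hv t₁
    rw [ht₁] at h1
    have h2 : |t₀| = s := by rw [← geo_d_abs h hv h0, h1, hr]
    have h4 : t₀ • v = s • u := by rw [← geo_d_lg h hv (h2 ▸ hs.2), h1, hl]
    rw [← h1, rr_geo h hP hv, cos_sub]
    rcases hs.1.eq_or_lt with rfl | hs0
    · rw [abs_eq_zero.1 h2]
      simp [FF]
    · rcases abs_eq_abs.1 (h2.trans (abs_of_pos hs0).symm) with rfl | rfl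
      · have h5 : v = u := smul_right_injective E hs0.ne' h4
        subst h5
        rw [h3, hvv, FF]; ring
      · have h5 : -v = u := smul_right_injective E hs0.ne' (by
          show s • -v = s • u
          rw [← h4, smul_neg, neg_smul])
        subst h5
        simp only [map_neg, LinearMap.neg_apply, neg_neg, h3, hvv, FF, cos_neg, sin_neg]
        ring
  · have hs0 : s ≠ 0 := by
      rintro rfl
      exact hq ⟨0, by rw [g.geo_zero, g.geo_zero]⟩
    have key := ode_glob (f := fun t => cos (rr g D (g.geo p v t) (g.geo p u s)) ^ 2)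
      (f1 := fun t => fa g D (g.geo p u s) (g.geo p v t) (vel E (g.geo p v) t))
      (Λ := fun t => fb g D (g.geo p u s) (g.geo p v t) (vel E (g.geo p v) t))
      (geo_d_cont (g.continuous_geo p v) continuous_const)
      (fun t => by rw [hP p v hv]) (fun t => sq_nonneg _)
      (by
        rw [g.geo_zero, hr]
        exact pow_pos (cos_pos_of_mem_Ioo ⟨by linarith [hs.1, pi_pos], hs.2⟩) 2)
      (fun t ht => geo_ode h hR hE hv ⟨?_, ?_⟩) t
    · rw [key, g.geo_zero, vel_geo_zero, fa, fb, hr, hl, ← hBp, FF, sin_two_mul]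
      simp only [map_smul, LinearMap.smul_apply, smul_eq_mul]
      rw [hB.sw v u]
      field_simp
    · refine mul_pos (by positivity) ((rdist_nonneg g _ _).lt_of_ne fun h0 => hq ⟨t, ?_⟩)
      obtain ⟨h1, h2⟩ := lg_spec g (g.geo p v t) (g.geo p u s)
      rw [nrm_eq_zero g (h2.trans h0.symm), g.exp_zero] at h1
      exact h1
    · have h1 : rr g D (g.geo p v t) (g.geo p u s) ≤ π / 2 := by
        have h2 := h.le (g.geo p v t) (g.geo p u s)
        calc rr g D (g.geo p v t) (g.geo p u s) ≤ π / (2 * D) * D :=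
              mul_le_mul_of_nonneg_left h2 (by positivity)
          _ = π / 2 := by field_simp
      refine h1.lt_of_ne fun h2 => ?_
      rw [h2, cos_pi_div_two] at ht
      simp at ht

theorem dist_formula (h : Bl g D) (hP : Per g D) (hR : Rig g D m)
    (hE : Module.finrank ℝ E = m + 1) {p : M} {u v : E} (hu : nrm g p u = 2 * D / π)
    (hv : nrm g p v = 2 * D / π) {s : ℝ} (hs : s ∈ Icc 0 (π / 2)) (t : ℝ) :
    cos (rr g D (g.geo p u s) (g.geo p v t)) ^ 2 =
      FF s t (nb g D p u v) (nb g D p (pu g D p u v) v) := by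
  have hc : IsClosed {s : ℝ | cos (rr g D (g.geo p u s) (g.geo p v t)) ^ 2 =
      FF s t (nb g D p u v) (nb g D p (pu g D p u v) v)} :=
    isClosed_eq (geo_d_cont (g.continuous_geo p u) continuous_const) (by unfold FF; fun_prop)
  have h1 := closure_minimal (s := Ico 0 (π / 2))
    (fun s hs => geo_d_lt h hP hR hE hu hv hs t) hc
  rw [closure_Ico (by positivity)] at h1
  exact h1 hs

end Vale.Agent.P231
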