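import Vale.Agent.P231.K.CompA

/-!
# The theorem of Hurwitz  (TASK)

`exists_orth`: the map `K → Dual W`, `j ↦ b · j` has a nonzero kernel by dimension; normalise.  A `Hom` with `iA x x = 0 → x = 0` is injective; if its range is `⊤` use `LinearEquiv.ofBijective`.
Start from `t ↦ t • e`.  Double (`Comp.double`) and compose with the explicit linear maps `ℂ → ℝ × ℝ`, `z ↦ (re, im)`, and `ℍ → ℂ × ℂ`, `q ↦ (⟨re, imI⟩, ⟨imJ, imK⟩)`, which intertwine products,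
conjugations, units and inner products (`ext <;> simp <;> ring`; `pip` on `ℂ`, `ℍ`: `Complex.sq_norm`, `Quaternion.normSq_eq_norm_mul_self`); `Oct` is the double of `ℍ` by definition.
A fourth doubling is impossible: its product would be norm multiplicative (`norm`, `Hom.ip`), but it has zero divisors, for example find units `a, c, d` of `Oct` with `(a c) d = -a (c d)`-type failure:
compute the norm of `(x, y) (z, w)` for basis vectors `x y z w` of `Oct` such that the product vanishes (search by computer algebra) and close with `norm_num`/`simp`.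
Prefix helper names by `hur_`.
-/

namespace Vale.Agent.P231

open Real Set Quaternion

variable {K : Type*} [AddCommGroup K] [Module ℝ K] {b : K →ₗ[ℝ] K →ₗ[ℝ] ℝ}
  {μ : K →ₗ[ℝ] K →ₗ[ℝ] K} {e : K}

/-- The inner product defined by a norm. -/
noncomputable def pip {A : Type*} [NormedAddCommGroup A] (x y : A) : ℝ :=
  (‖x + y‖ ^ 2 - ‖x‖ ^ 2 - ‖y‖ ^ 2) / 2

theorem exists_orth [FiniteDimensional ℝ K] (h : Comp b μ e) {W : Submodule ℝ K} (hW : W ≠ ⊤) :
    ∃ j, b j j = 1 ∧ ∀ w ∈ W, b w j = 0 := by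
  have h1 : Module.finrank ℝ (Module.Dual ℝ W) < Module.finrank ℝ K := by
    rw [Subspace.dual_finrank_eq]
    exact Submodule.finrank_lt hW
  have h2 := LinearMap.ker_ne_bot_of_finrank_lt (f := (b.compl₂ W.subtype : K →ₗ[ℝ] Module.Dual ℝ W)) h1
  obtain ⟨j, hj, hj0⟩ := Submodule.exists_mem_ne_zero_of_ne_bot h2
  have hp := h.bp j hj0
  refine ⟨(√(b j j))⁻¹ • j, ?_, fun w hw => ?_⟩
  · simp only [map_smul, LinearMap.smul_apply, smul_eq_mul]
    rw [← mul_assoc, ← mul_inv, Real.mul_self_sqrt hp.le, inv_mul_cancel₀ hp.ne']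
  · have h3 : b j w = 0 := LinearMap.congr_fun (LinearMap.mem_ker.1 hj) ⟨w, hw⟩
    rw [map_smul, h.bs w j, h3, smul_zero]

theorem hur_comp {A A' : Type*} [AddCommGroup A] [Module ℝ A] [AddCommGroup A'] [Module ℝ A']
    {mA : A → A → A} {cA : A → A} {oA : A} {iA : A → A → ℝ} {φ : A →ₗ[ℝ] K}
    (hφ : Hom b μ e mA cA oA iA φ) {mB : A' → A' → A'} {cB : A' → A'} {oB : A'} {iB : A' → A' → ℝ}
    (ψ : A' →ₗ[ℝ] A) (h1 : ∀ x y, ψ (mB x y) = mA (ψ x) (ψ y)) (h2 : ∀ x, ψ (cB x) = cA (ψ x))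
    (h3 : ψ oB = oA) (h4 : ∀ x y, iA (ψ x) (ψ y) = iB x y) : Hom b μ e mB cB oB iB (φ ∘ₗ ψ) :=
  ⟨fun x y => by rw [LinearMap.comp_apply, h1, hφ.mul]; rfl,
    fun x => by rw [LinearMap.comp_apply, h2, hφ.conj]; rfl,
    by rw [LinearMap.comp_apply, h3, hφ.one],
    fun x y => by rw [LinearMap.comp_apply, LinearMap.comp_apply, hφ.ip, h4]⟩

theorem hur_step [FiniteDimensional ℝ K] (h : Comp b μ e) {A : Type*} [AddCommGroup A] [Module ℝ A]
    {mA : A → A → A} {cA : A → A} {oA : A} {iA : A → A → ℝ} {φ : A →ₗ[ℝ] K}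
    (hφ : Hom b μ e mA cA oA iA φ) (h0 : ∀ x, iA x x = 0 → x = 0) :
    (∃ φ' : A ≃ₗ[ℝ] K, Hom b μ e mA cA oA iA φ'.toLinearMap) ∨
    ∃ φ' : A × A →ₗ[ℝ] K, Hom b μ e
      (fun x y : A × A => (mA x.1 y.1 - mA (cA y.2) x.2, mA y.2 x.1 + mA x.2 (cA y.1)))
      (fun x => (cA x.1, -x.2)) (oA, 0) (fun x y => iA x.1 y.1 + iA x.2 y.2) φ' := by
  by_cases hr : LinearMap.range φ = ⊤
  · left
    have hi : Function.Injective φ := by
      rw [injective_iff_map_eq_zero]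
      intro x hx
      refine h0 x ?_
      rw [← hφ.ip, hx, map_zero]
    exact ⟨LinearEquiv.ofBijective φ ⟨hi, LinearMap.range_eq_top.1 hr⟩, hφ⟩
  · right
    obtain ⟨j, hj, hp⟩ := exists_orth h hr
    exact ⟨_, h.double hφ hj fun x => hp _ ⟨x, rfl⟩⟩

theorem hur_pipR (x y : ℝ) : pip x y = x * y := by
  simp only [pip, Real.norm_eq_abs, sq_abs]
  ring

theorem hur_pipC (x y : ℂ) : pip x y = x.re * y.re + x.im * y.im := by
  simp only [pip, Complex.sq_norm, Complex.normSq_apply, Complex.add_re, Complex.add_im]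
  ring

theorem hur_pipH (x y : ℍ[ℝ]) :
    pip x y = x.re * y.re + x.imI * y.imI + x.imJ * y.imJ + x.imK * y.imK := by
  have h1 : ∀ a : ℍ[ℝ], ‖a‖ ^ 2 = a.re ^ 2 + a.imI ^ 2 + a.imJ ^ 2 + a.imK ^ 2 := fun a => by
    rw [sq, ← Quaternion.normSq_eq_norm_mul_self, Quaternion.normSq_def']
  simp only [pip, h1, Quaternion.re_add, Quaternion.imI_add, Quaternion.imJ_add,
    Quaternion.imK_add]
  ring

theorem hur_pip0 {A : Type*} [NormedAddCommGroup A] [NormedSpace ℝ A] (x : A) (h : pip x x = 0) :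
    x = 0 := by
  have h1 : ‖x + x‖ = 2 * ‖x‖ := by
    rw [← two_smul ℝ x, norm_smul]
    simp
  rw [pip, h1] at h
  have h2 : ‖x‖ ^ 2 = 0 := by linarith
  simpa using h2

theorem hur_oip (x y : Oct) : oip x y = pip x.1 y.1 + pip x.2 y.2 := by
  rw [hur_pipH, hur_pipH]
  simp [oip, omul, oconj]
  ring

theorem hur_oip0 (x : Oct) (h : oip x x = 0) : x = 0 := by
  rw [hur_oip] at h
  have h1 : 0 ≤ pip x.1 x.1 := by
    rw [hur_pipH]
    nlinarith [mul_self_nonneg x.1.re, mul_self_nonneg x.1.imI, mul_self_nonneg x.1.imJ,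
      mul_self_nonneg x.1.imK]
  have h2 : 0 ≤ pip x.2 x.2 := by
    rw [hur_pipH]
    nlinarith [mul_self_nonneg x.2.re, mul_self_nonneg x.2.imI, mul_self_nonneg x.2.imJ,
      mul_self_nonneg x.2.imK]
  exact Prod.ext (hur_pip0 _ (by linarith)) (hur_pip0 _ (by linarith))

/-- A quaternion as a pair of complex numbers. -/
def hur_split : ℍ[ℝ] →ₗ[ℝ] ℂ × ℂ where
  toFun q := (⟨q.re, q.imI⟩, ⟨q.imJ, q.imK⟩)
  map_add' _ _ := rfl
  map_smul' c q := by
    refine Prod.ext (Complex.ext ?_ ?_) (Complex.ext ?_ ?_) <;> simp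

theorem hur_split_apply (q : ℍ[ℝ]) : hur_split q = (⟨q.re, q.imI⟩, ⟨q.imJ, q.imK⟩) := rfl

theorem hur_real (h : Comp b μ e) :
    Hom b μ e (· * ·) star 1 pip (LinearMap.toSpanSingleton ℝ K e) := by
  refine ⟨fun x y => ?_, fun x => ?_, ?_, fun x y => ?_⟩
  · simp only [LinearMap.toSpanSingleton_apply, map_smul, LinearMap.smul_apply, h.mul_one,
      smul_smul, mul_comm]
  · simp only [LinearMap.toSpanSingleton_apply, cj, map_smul, LinearMap.smul_apply, h.one,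
      smul_eq_mul, star_trivial, ← sub_smul]
    congr 1
    ring
  · simp only [LinearMap.toSpanSingleton_apply, one_smul]
  · simp only [LinearMap.toSpanSingleton_apply, map_smul, LinearMap.smul_apply, h.one, smul_eq_mul,
      hur_pipR]
    ring

theorem hur_ij : ∃ i j : ℍ[ℝ], (i.re = 0 ∧ i.imI = 1 ∧ i.imJ = 0 ∧ i.imK = 0) ∧
    (j.re = 0 ∧ j.imI = 0 ∧ j.imJ = 1 ∧ j.imK = 0) :=
  ⟨⟨0, 1, 0, 0⟩, ⟨0, 0, 1, 0⟩, ⟨rfl, rfl, rfl, rfl⟩, rfl, rfl, rfl, rfl⟩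

theorem hur_sed (h : Comp b μ e) {φ : Oct × Oct →ₗ[ℝ] K} (hφ : Hom b μ e
    (fun x y : Oct × Oct =>
      (omul x.1 y.1 - omul (oconj y.2) x.2, omul y.2 x.1 + omul x.2 (oconj y.1)))
    (fun x => (oconj x.1, -x.2)) ((1, 0), 0) (fun x y => oip x.1 y.1 + oip x.2 y.2) φ) : False := by
  obtain ⟨i, j, ⟨a1, a2, a3, a4⟩, b1, b2, b3, b4⟩ := hur_ij
  have h1 := h.norm (φ ((i, 0), (j, 0))) (φ ((0, i), (0, j)))
  rw [← hφ.mul, hφ.ip, hφ.ip, hφ.ip] at h1
  simp only [hur_oip, hur_pipH] at h1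
  simp [omul, oconj, a1, a2, a3, a4, b1, b2, b3, b4] at h1

theorem hurwitz [FiniteDimensional ℝ K] (h : Comp b μ e) :
    (∃ φ : ℝ ≃ₗ[ℝ] K, Hom b μ e (· * ·) star 1 pip φ.toLinearMap) ∨
    (∃ φ : ℂ ≃ₗ[ℝ] K, Hom b μ e (· * ·) star 1 pip φ.toLinearMap) ∨
    (∃ φ : ℍ[ℝ] ≃ₗ[ℝ] K, Hom b μ e (· * ·) star 1 pip φ.toLinearMap) ∨
    (∃ φ : Oct ≃ₗ[ℝ] K, Hom b μ e omul oconj (1, 0) oip φ.toLinearMap) := by
  rcases hur_step h (hur_real h) hur_pip0 with h1 | ⟨φ1, h1⟩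
  · exact Or.inl h1
  have hC : Hom b μ e (· * ·) star 1 pip (φ1 ∘ₗ Complex.equivRealProdLm.toLinearMap) := by
    refine hur_comp h1 _ (fun x y => ?_) (fun x => ?_) ?_ (fun x y => ?_)
    · refine Prod.ext ?_ ?_ <;> simp <;> ring
    · refine Prod.ext ?_ ?_ <;> simp
    · refine Prod.ext ?_ ?_ <;> simp
    · simp [hur_pipR, hur_pipC]
  rcases hur_step h hC hur_pip0 with h2 | ⟨φ2, h2⟩
  · exact Or.inr (Or.inl h2)
  have hH : Hom b μ e (· * ·) star 1 pip (φ2 ∘ₗ hur_split) := by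
    refine hur_comp h2 _ (fun x y => ?_) (fun x => ?_) ?_ (fun x y => ?_)
    · refine Prod.ext (Complex.ext ?_ ?_) (Complex.ext ?_ ?_) <;> simp [hur_split_apply] <;> ring
    · refine Prod.ext (Complex.ext ?_ ?_) (Complex.ext ?_ ?_) <;> simp [hur_split_apply]
    · refine Prod.ext (Complex.ext ?_ ?_) (Complex.ext ?_ ?_) <;> simp [hur_split_apply]
    · simp only [hur_pipC, hur_pipH, hur_split_apply]
      ring
  rcases hur_step h hH hur_pip0 with h3 | ⟨φ3, h3⟩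
  · exact Or.inr (Or.inr (Or.inl h3))
  have hO : Hom b μ e omul oconj (1, 0) oip φ3 :=
    ⟨h3.mul, h3.conj, h3.one, fun x y => by rw [h3.ip, hur_oip]⟩
  rcases hur_step h hO hur_oip0 with h4 | ⟨φ4, h4⟩
  · exact Or.inr (Or.inr (Or.inr h4))
  exact (hur_sed h h4).elim

theorem oct_not_assoc : ¬∀ x y z : Oct, omul (omul x y) z = omul x (omul y z) := by
  intro h
  obtain ⟨i, j, ⟨a1, a2, a3, a4⟩, b1, b2, b3, b4⟩ := hur_ij
  have h1 := congrArg (fun w : Oct => w.2.imK) (h (i, 0) (j, 0) (0, 1))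
  simp [omul, a1, a2, a3, a4, b1, b2, b3, b4] at h1
  norm_num at h1

end Vale.Agent.P231
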