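import Vale.Agent.P231.K.Hur

/-!
# The Cayley plane: points  (TASK)

`ver s x y` is the matrix `v_i conj v_j`, `v = (cos s, sin s • x, sin s • y)`.  `ver_mem`: entries by `fin_cases`; use alternativity in `Oct` (polynomial identities, `ext <;> simp [omul, oconj] <;> ring`):
`conj p (p q) = |p|² q`, `(q p) conj p = |p|² q`, `conj (p q) = conj q conj p`, `|p q|² = |p|² |q|²`.  `cayley_onto`: diagonal entries are real, `λ_i + ... = 1`; the diagonal equations give `|X_ij|² = λ_i λ_j` and `λ_i ≥ 0`;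
the `(1,2)` equation gives `X_10 X_02 = λ_0 X_12`.  If `λ_0 > 0` take `cos s = √λ_0`, `sin s • x = X_10 / √λ_0`, `sin s • y = X_20 / √λ_0` (any unit pair if `λ_0 = 1`).  If `λ_0 = 0` take `s = π / 2` and
`(x, y) = (√λ_1, X_21 / √λ_1)`, or `(0, 1)` if `λ_1 = 0`.  `cayley_sep`: `∑ oip X X = 1`, `oip` is the Euclidean inner product, expand `|X - Y|²`.
Prefix helper names by `md_oa_`.
-/

namespace Vale.Agent.P231

open Real Set Quaternion

/-- The Veronese matrix. -/
noncomputable def ver (s : ℝ) (x y : Oct) (i j : Fin 3) : Oct :=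
  omul (![(cos s • (1, 0) : Oct), sin s • x, sin s • y] i)
    (oconj (![(cos s • (1, 0) : Oct), sin s • x, sin s • y] j))

theorem md_oa_ip (x y : Oct) : oip x y = x.1.re * y.1.re + x.1.imI * y.1.imI + x.1.imJ * y.1.imJ +
    x.1.imK * y.1.imK + x.2.re * y.2.re + x.2.imI * y.2.imI + x.2.imJ * y.2.imJ +
    x.2.imK * y.2.imK := by
  simp [oip, omul, oconj]
  ring

theorem md_oa_nonneg (x : Oct) : 0 ≤ oip x x := by
  rw [md_oa_ip]
  simp only [← sq]
  positivity

theorem md_oa_zero {x : Oct} (h : oip x x = 0) : x = 0 := by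
  rw [md_oa_ip] at h
  have k : ∀ t r : ℝ, 0 ≤ r → t * t + r = 0 → t = 0 := fun t r hr e =>
    mul_self_eq_zero.1 (by linarith [mul_self_nonneg t])
  have := mul_self_nonneg x.1.re
  have := mul_self_nonneg x.1.imI
  have := mul_self_nonneg x.1.imJ
  have := mul_self_nonneg x.1.imK
  have := mul_self_nonneg x.2.re
  have := mul_self_nonneg x.2.imI
  have := mul_self_nonneg x.2.imJ
  have := mul_self_nonneg x.2.imK
  ext <;> exact mul_self_eq_zero.1 (by linarith)

theorem md_oa_ips (c : ℝ) (x : Oct) : oip (c • x) (c • x) = c ^ 2 * oip x x := by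
  simp [md_oa_ip]
  ring

theorem md_oa_sl (c : ℝ) (x y : Oct) : omul (c • x) y = c • omul x y := by
  ext <;> simp [omul] <;> ring

theorem md_oa_sr (c : ℝ) (x y : Oct) : omul x (c • y) = c • omul x y := by
  ext <;> simp [omul] <;> ring

theorem md_oa_sc (c : ℝ) (x : Oct) : oconj (c • x) = c • oconj x := by
  ext <;> simp [oconj]

theorem md_oa_c1 : oconj (1, 0) = (1, 0) := by simp [oconj]

theorem md_oa_1l (x : Oct) : omul (1, 0) x = x := by simp [omul]

theorem md_oa_1r (x : Oct) : omul x (1, 0) = x := by simp [omul]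

theorem md_oa_cc (x : Oct) : oconj (oconj x) = x := by simp [oconj]

theorem md_oa_cm (x y : Oct) : oconj (omul x y) = omul (oconj y) (oconj x) := by
  ext <;> simp [omul, oconj] <;> ring

theorem md_oa_mc (x : Oct) : omul x (oconj x) = oip x x • (1, 0) := by
  ext <;> simp [omul, oconj, md_oa_ip] <;> ring

theorem md_oa_cm' (x : Oct) : omul (oconj x) x = oip x x • (1, 0) := by
  ext <;> simp [omul, oconj, md_oa_ip] <;> ring

theorem md_oa_al (x y : Oct) : omul (oconj x) (omul x y) = oip x x • y := by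
  ext <;> simp [omul, oconj, md_oa_ip] <;> ring

theorem md_oa_ar (x y : Oct) : omul (omul y (oconj x)) x = oip x x • y := by
  ext <;> simp [omul, oconj, md_oa_ip] <;> ring

theorem md_oa_q (x y : Oct) :
    omul (omul x (oconj y)) (omul y (oconj x)) = (oip y y * oip x x) • (1, 0) := by
  have k : oip (omul x (oconj y)) (omul x (oconj y)) = oip y y * oip x x := by
    simp [omul, oconj, md_oa_ip]
    ring
  rw [← k, ← md_oa_mc, md_oa_cm, md_oa_cc]

theorem md_oa_real {x : Oct} (h : x = oconj x) : x = x.1.re • (1, 0) := by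
  have h1 := congrArg Prod.fst h
  have h2 := congrArg Prod.snd h
  simp only [oconj, Quaternion.ext_iff, re_star, imI_star, imJ_star, imK_star, re_neg, imI_neg,
    imJ_neg, imK_neg] at h1 h2
  ext <;> simp <;> linarith [h1.2.1, h1.2.2.1, h1.2.2.2, h2.1, h2.2.1, h2.2.2.1, h2.2.2.2]

/-- The matrix of the vector `(c, a, b)`. -/
noncomputable def md_oa_M (c : ℝ) (a b : Oct) (i j : Fin 3) : Oct :=
  omul (![(c • (1, 0) : Oct), a, b] i) (oconj (![(c • (1, 0) : Oct), a, b] j))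

theorem md_oa_val (c : ℝ) (a b : Oct) : md_oa_M c a b =
    ![![c ^ 2 • (1, 0), c • oconj a, c • oconj b], ![c • a, oip a a • (1, 0), omul a (oconj b)],
      ![c • b, omul b (oconj a), oip b b • (1, 0)]] := by
  funext i j
  fin_cases i <;> fin_cases j <;>
    simp only [md_oa_M, Fin.zero_eta, Fin.mk_one, Fin.reduceFinMk, Matrix.cons_val, md_oa_sl,
      md_oa_sr, md_oa_sc, md_oa_c1, md_oa_1l, md_oa_1r, md_oa_mc, smul_smul, sq]

theorem md_oa_mem (c : ℝ) {a b : Oct} (h : c ^ 2 + (oip a a + oip b b) = 1) :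
    (∀ i j, md_oa_M c a b j i = oconj (md_oa_M c a b i j)) ∧
      (∀ i j, ∑ l, omul (md_oa_M c a b i l) (md_oa_M c a b l j) = md_oa_M c a b i j) ∧
      ∑ i, md_oa_M c a b i i = (1, 0) := by
  refine ⟨fun i j => by rw [md_oa_M, md_oa_M, md_oa_cm, md_oa_cc], fun i j => ?_, ?_⟩
  · rw [← one_smul ℝ (md_oa_M c a b i j), ← h, md_oa_val]
    fin_cases i <;> fin_cases j <;>
      simp only [Fin.sum_univ_three, Fin.zero_eta, Fin.mk_one, Fin.reduceFinMk, Matrix.cons_val,
        md_oa_sl, md_oa_sr, md_oa_1l, md_oa_1r, md_oa_mc, md_oa_cm', md_oa_al, md_oa_ar,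
        md_oa_q] <;> module
  · rw [md_oa_val]
    simp only [Fin.sum_univ_three, Matrix.cons_val, ← add_smul]
    rw [add_assoc, h, one_smul]

theorem md_oa_pol {c : ℝ} (hc : 0 ≤ c) {a b : Oct} (h : c ^ 2 + (oip a a + oip b b) = 1) :
    ∃ s ∈ Icc 0 (π / 2), ∃ x y : Oct, oip x x + oip y y = 1 ∧ ver s x y = md_oa_M c a b := by
  have a0 := md_oa_nonneg a
  have b0 := md_oa_nonneg b
  have e : cos (arccos c) = c := cos_arccos (by linarith) (by nlinarith)
  have e2 := cos_sq_add_sin_sq (arccos c)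
  rw [e] at e2
  refine ⟨arccos c, ⟨arccos_nonneg c, arccos_le_pi_div_two.2 hc⟩, ?_⟩
  by_cases h0 : sin (arccos c) = 0
  · refine ⟨(1, 0), 0, by simp [md_oa_ip], ?_⟩
    rw [h0] at e2
    rw [md_oa_zero (x := a) (by linarith), md_oa_zero (x := b) (by linarith)]
    funext i j
    rw [ver, e, h0, zero_smul, zero_smul, md_oa_M]
  · refine ⟨(sin (arccos c))⁻¹ • a, (sin (arccos c))⁻¹ • b, ?_, ?_⟩
    · rw [md_oa_ips, md_oa_ips, ← mul_add, inv_pow, inv_mul_eq_one₀ (pow_ne_zero 2 h0)]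
      linarith
    · funext i j
      rw [ver, e, smul_inv_smul₀ h0, smul_inv_smul₀ h0, md_oa_M]

theorem ver_mem (s : ℝ) {x y : Oct} (h : oip x x + oip y y = 1) :
    (∀ i j, ver s x y j i = oconj (ver s x y i j)) ∧
      (∀ i j, ∑ l, omul (ver s x y i l) (ver s x y l j) = ver s x y i j) ∧
      ∑ i, ver s x y i i = (1, 0) := by
  refine md_oa_mem (cos s) (a := sin s • x) (b := sin s • y) ?_
  rw [md_oa_ips, md_oa_ips, ← mul_add, h, mul_one, cos_sq_add_sin_sq]

theorem cayley_onto (X : Cayley) : ∃ s ∈ Icc 0 (π / 2), ∃ x y : Oct,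
    oip x x + oip y y = 1 ∧ ver s x y = X.1 := by
  obtain ⟨X, h1, h2, h3⟩ := X
  have d := fun i => md_oa_real (h1 i i)
  obtain ⟨l, hl⟩ : ∃ l : Fin 3 → ℝ, ∀ i, X i i = l i • (1, 0) := ⟨_, d⟩
  have key : ∀ (c : ℝ) (a b : Oct), 0 ≤ c → c ^ 2 = l 0 → oip a a = l 1 → oip b b = l 2 →
      c • a = X 1 0 → c • b = X 2 0 → omul b (oconj a) = X 2 1 →
      ∃ s ∈ Icc 0 (π / 2), ∃ x y : Oct, oip x x + oip y y = 1 ∧ ver s x y = X := by
    intro c a b hc e0 e1 e2 f1 f2 f3
    have t := congrArg (fun x : Oct => x.1.re) h3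
    simp [Fin.sum_univ_three, hl] at t
    suffices e : md_oa_M c a b = X from e ▸ md_oa_pol hc (by linarith)
    rw [md_oa_val]
    funext i j
    fin_cases i <;> fin_cases j <;>
      simp only [Fin.zero_eta, Fin.mk_one, Fin.reduceFinMk, Matrix.cons_val, hl, e0, e1, e2, f1, f2,
        f3, h1 1 0, h1 2 0, h1 2 1, ← md_oa_sc]
    rw [← f3, md_oa_cm, md_oa_cc]
  have t := congrArg (fun x : Oct => x.1.re) h3
  have t0 := congrArg (fun x : Oct => x.1.re) (h2 0 0)
  have t1 := congrArg (fun x : Oct => x.1.re) (h2 1 1)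
  have t2 := congrArg (fun x : Oct => x.1.re) (h2 2 2)
  have t3 := h2 2 1
  simp only [Fin.sum_univ_three, hl, h1 1 0, h1 2 0, h1 2 1, md_oa_sl, md_oa_sr, md_oa_1l,
    md_oa_1r, md_oa_mc, md_oa_cm'] at t t0 t1 t2 t3
  simp at t t0 t1 t2
  have n1 := md_oa_nonneg (X 1 0)
  have n2 := md_oa_nonneg (X 2 0)
  have n3 := md_oa_nonneg (X 2 1)
  have p1 : oip (X 1 0) (X 1 0) = l 0 * l 1 := by
    linear_combination (t0 + t1 - t2) / 2 - (l 0 + l 1 - l 2) / 2 * t
  have p2 : oip (X 2 0) (X 2 0) = l 0 * l 2 := by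
    linear_combination (t0 - t1 + t2) / 2 - (l 0 - l 1 + l 2) / 2 * t
  have p3 : oip (X 2 1) (X 2 1) = l 1 * l 2 := by
    linear_combination (t1 + t2 - t0) / 2 - (l 1 + l 2 - l 0) / 2 * t
  have p4 : omul (X 2 0) (oconj (X 1 0)) = l 0 • X 2 1 := by
    linear_combination (norm := module) t3 - t • X 2 1
  have l0 : 0 ≤ l 0 := by nlinarith [mul_self_nonneg (l 0)]
  have l1 : 0 ≤ l 1 := by nlinarith [mul_self_nonneg (l 1)]
  rcases l0.eq_or_lt with e0 | e0
  · rw [← e0, zero_mul] at p1 p2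
    rcases l1.eq_or_lt with e1 | e1
    · rw [← e1, zero_mul] at p3
      refine key 0 0 (1, 0) le_rfl (by simp [← e0]) (by simp [md_oa_ip, ← e1])
        (by simp [md_oa_ip]; linarith) (by simp [md_oa_zero p1]) (by simp [md_oa_zero p2]) ?_
      simp [md_oa_zero p3, omul, oconj]
    · have q := (sqrt_pos.2 e1).ne'
      refine key 0 (√(l 1) • (1, 0)) ((√(l 1))⁻¹ • X 2 1) le_rfl (by simp [← e0]) ?_ ?_
        (by simp [md_oa_zero p1]) (by simp [md_oa_zero p2]) ?_
      · rw [md_oa_ips, sq_sqrt l1]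
        simp [md_oa_ip]
      · rw [md_oa_ips, inv_pow, sq_sqrt l1, p3, inv_mul_cancel_left₀ e1.ne']
      · rw [md_oa_sc, md_oa_sr, md_oa_c1, md_oa_1r, smul_inv_smul₀ q]
  · have q := (sqrt_pos.2 e0).ne'
    refine key √(l 0) ((√(l 0))⁻¹ • X 1 0) ((√(l 0))⁻¹ • X 2 0) (sqrt_nonneg _) (sq_sqrt l0) ?_ ?_
      (smul_inv_smul₀ q _) (smul_inv_smul₀ q _) ?_
    · rw [md_oa_ips, inv_pow, sq_sqrt l0, p1, inv_mul_cancel_left₀ e0.ne']
    · rw [md_oa_ips, inv_pow, sq_sqrt l0, p2, inv_mul_cancel_left₀ e0.ne']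
    · rw [md_oa_sc, md_oa_sr, md_oa_sl, p4, smul_smul, smul_smul, ← mul_inv, mul_self_sqrt l0,
        inv_mul_cancel₀ e0.ne', one_smul]

theorem cayley_sep (X Y : Cayley) (h : cayleyDist X Y = 0) : X = Y := by
  have n : ∀ Z : Cayley, ∑ i, ∑ j, oip (Z.1 i j) (Z.1 i j) = 1 := fun Z => by
    have k := congrArg (fun x : Oct => x.1.re) Z.2.2.2
    have k1 : ∀ i, ∑ j, oip (Z.1 i j) (Z.1 i j) = (Z.1 i i).1.re := fun i => by
      have := congrArg (fun x : Oct => x.1.re) (Z.2.2.1 i i)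
      simpa [Fin.sum_univ_three, oip, ← Z.2.1] using this
    simpa [k1, Fin.sum_univ_three] using k
  have h1 := one_le_sqrt.1 (arccos_eq_zero.1 h)
  have e : ∀ x y : Oct, oip (x - y) (x - y) = oip x x + oip y y - 2 * oip x y := fun x y => by
    simp [md_oa_ip]
    ring
  have k : ∑ i, ∑ j, oip (X.1 i j - Y.1 i j) (X.1 i j - Y.1 i j) = 0 := by
    refine le_antisymm ?_ (Finset.sum_nonneg fun i _ => Finset.sum_nonneg fun j _ => md_oa_nonneg _)
    simp only [e, Finset.sum_sub_distrib, Finset.sum_add_distrib, ← Finset.mul_sum, n]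
    linarith
  refine Subtype.ext (funext fun i => funext fun j => sub_eq_zero.1 (md_oa_zero ?_))
  exact (Finset.sum_eq_zero_iff_of_nonneg fun j _ => md_oa_nonneg _).1
    ((Finset.sum_eq_zero_iff_of_nonneg fun i _ => Finset.sum_nonneg fun j _ =>
      md_oa_nonneg _).1 k i (Finset.mem_univ i)) j (Finset.mem_univ j)

end Vale.Agent.P231
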