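import Vale.Agent.P231.K.Hur

/-!
# Projective spaces: the distance  (TASK)

`A` is a normed division algebra with `x * star x = ‖x‖²`.  Then `‖star x‖ = ‖x‖`.  `proj_mk`: `rep (mk v) = a • v` (`Projectivization.exists_smul_eq_mk_rep`), `∑ (a x_i) star (a' y_i) = a (∑ x_i star y_i) star a'`.
`proj_sep`: `arccos = 0` gives `|x|² |y|² ≤ ‖h‖²`, `h = ∑ x_i star y_i`; with `z_i = |y|² • x_i - h y_i`, `∑ z_i star z_i = |y|² (|x|² |y|² - ‖h‖²)` (as scalars), so all `z_i = 0` and `x = (|y|²)⁻¹ h • y`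
(`Projectivization.mk_eq_mk_iff'`, `mk_rep`).
Prefix helper names by `md_pa_`.
-/

namespace Vale.Agent.P231

open Real Set Projectivization

variable {A : Type} [NormedDivisionRing A] [StarRing A] [NormedAlgebra ℝ A] [StarModule ℝ A]

theorem md_pa_star (hA : ∀ x : A, x * star x = algebraMap ℝ A (‖x‖ ^ 2)) (x : A) :
    ‖star x‖ = ‖x‖ := by
  rcases eq_or_ne x 0 with rfl | hx
  · simp
  · have h := congrArg norm (hA x)
    rw [norm_mul, norm_algebraMap', Real.norm_of_nonneg (sq_nonneg _), sq] at h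
    exact mul_left_cancel₀ (norm_ne_zero_iff.2 hx) h

theorem md_pa_pos {n : ℕ} {x : Fin n → A} (hx : x ≠ 0) : 0 < ∑ i, ‖x i‖ ^ 2 := by
  obtain ⟨k, hk⟩ := Function.ne_iff.1 hx
  exact Finset.sum_pos' (fun _ _ => by positivity)
    ⟨k, Finset.mem_univ _, pow_pos (norm_pos_iff.2 hk) 2⟩

theorem md_pa_sum (hA : ∀ x : A, x * star x = algebraMap ℝ A (‖x‖ ^ 2)) {n : ℕ} (x : Fin n → A) :
    ∑ i, x i * star (x i) = (∑ i, ‖x i‖ ^ 2) • (1 : A) := by
  simp only [hA, Algebra.algebraMap_eq_smul_one, Finset.sum_smul]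

theorem md_pa_norm {n : ℕ} {x : Fin (n + 1) → A} (hx : x ≠ 0) :
    ∃ (u : A) (c : ℝ), 0 ≤ c ∧ u * x 0 = algebraMap ℝ A c ∧ ∑ i, ‖u * x i‖ ^ 2 = 1 := by
  have X0 := md_pa_pos hx
  set N := √(∑ i, ‖x i‖ ^ 2) with hN
  have N0 : 0 < N := Real.sqrt_pos.2 X0
  have key : ∀ u : A, ‖u‖ = N⁻¹ → ∑ i, ‖u * x i‖ ^ 2 = 1 := by
    intro u hu
    simp only [norm_mul, mul_pow, hu, ← Finset.mul_sum]
    rw [← Real.sq_sqrt X0.le, ← hN]
    field_simp
  rcases eq_or_ne (x 0) 0 with h0 | h0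
  · refine ⟨algebraMap ℝ A N⁻¹, 0, le_rfl, by simp [h0], key _ ?_⟩
    rw [norm_algebraMap', Real.norm_of_nonneg (inv_pos.2 N0).le]
  · have n0 : 0 < ‖x 0‖ := norm_pos_iff.2 h0
    refine ⟨(N⁻¹ * ‖x 0‖) • (x 0)⁻¹, N⁻¹ * ‖x 0‖, by positivity, ?_, key _ ?_⟩
    · rw [smul_mul_assoc, inv_mul_cancel₀ h0, Algebra.algebraMap_eq_smul_one]
    · rw [norm_smul, norm_inv, Real.norm_of_nonneg (by positivity)]
      field_simp

theorem proj_mk (hA : ∀ x : A, x * star x = algebraMap ℝ A (‖x‖ ^ 2)) {n : ℕ}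
    {x y : Fin (n + 1) → A} (hx : x ≠ 0) (hy : y ≠ 0) (hx1 : ∑ i, ‖x i‖ ^ 2 = 1)
    (hy1 : ∑ i, ‖y i‖ ^ 2 = 1) : projDist A n (Projectivization.mk A x hx)
      (Projectivization.mk A y hy) = arccos ‖∑ i, x i * star (y i)‖ := by
  obtain ⟨a, ha⟩ := exists_smul_eq_mk_rep A x hx
  obtain ⟨b, hb⟩ := exists_smul_eq_mk_rep A y hy
  have a0 : 0 < ‖(a : A)‖ := norm_pos_iff.2 a.ne_zero
  have b0 : 0 < ‖(b : A)‖ := norm_pos_iff.2 b.ne_zero
  unfold projDist
  rw [← ha, ← hb]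
  have e : ∑ i, (a • x) i * star ((b • y) i) = a * (∑ i, x i * star (y i)) * star (b : A) := by
    rw [Finset.mul_sum, Finset.sum_mul]
    refine Finset.sum_congr rfl fun i _ => ?_
    simp only [Pi.smul_apply, Units.smul_def, smul_eq_mul, star_mul, mul_assoc]
  rw [e]
  simp only [Pi.smul_apply, Units.smul_def, smul_eq_mul, norm_mul, mul_pow, ← Finset.mul_sum, hx1,
    hy1, mul_one, md_pa_star hA]
  rw [← mul_pow, Real.sqrt_sq (by positivity)]
  congr 1
  field_simp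

theorem proj_sep (hA : ∀ x : A, x * star x = algebraMap ℝ A (‖x‖ ^ 2)) {n : ℕ}
    (p q : Projectivization A (Fin (n + 1) → A)) (h : projDist A n p q = 0) : p = q := by
  unfold projDist at h
  have X0 := md_pa_pos p.rep_nonzero
  have Y0 := md_pa_pos q.rep_nonzero
  have hx := md_pa_sum hA p.rep
  have hy := md_pa_sum hA q.rep
  set x := p.rep with hxp
  set y := q.rep with hyq
  set X := ∑ i, ‖x i‖ ^ 2
  set Y := ∑ i, ‖y i‖ ^ 2
  set k := ∑ i, x i * star (y i) with hk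
  rw [arccos_eq_zero, one_le_div (Real.sqrt_pos.2 (mul_pos X0 Y0))] at h
  have h1 : X * Y ≤ ‖k‖ ^ 2 := (Real.sqrt_le_left (norm_nonneg _)).1 h
  have hk' : ∑ i, y i * star (x i) = star k := by
    simp only [hk, star_sum, star_mul, star_star]
  have hkk : k * star k = (‖k‖ ^ 2) • (1 : A) := by rw [hA, Algebra.algebraMap_eq_smul_one]
  have e : ∑ i, (Y • x i - k * y i) * star (Y • x i - k * y i) =
      (Y * (X * Y - ‖k‖ ^ 2)) • (1 : A) := by
    have e1 : ∀ i, (Y • x i - k * y i) * star (Y • x i - k * y i) =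
        (Y * Y) • (x i * star (x i)) - Y • (x i * star (y i) * star k) -
          Y • (k * (y i * star (x i))) + k * (y i * star (y i)) * star k := by
      intro i
      simp only [star_sub, star_smul, star_trivial, star_mul, sub_mul, mul_sub, smul_mul_assoc,
        mul_smul_comm, mul_assoc]
      module
    simp only [e1, Finset.sum_add_distrib, Finset.sum_sub_distrib, ← Finset.smul_sum,
      ← Finset.sum_mul, ← Finset.mul_sum, hx, hy, ← hk, hk', hkk, smul_mul_assoc, mul_smul_comm,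
      mul_one, smul_smul, ← sub_smul, ← add_smul]
    congr 1
    ring
  rw [md_pa_sum hA] at e
  have e2 := smul_left_injective ℝ (one_ne_zero (α := A)) e
  have e3 : ∑ i, ‖Y • x i - k * y i‖ ^ 2 = 0 :=
    le_antisymm (e2.trans_le (by nlinarith)) (Finset.sum_nonneg fun _ _ => sq_nonneg _)
  rw [Finset.sum_eq_zero_iff_of_nonneg fun _ _ => sq_nonneg _] at e3
  rw [← mk_rep p, ← mk_rep q, mk_eq_mk_iff']
  refine ⟨Y⁻¹ • k, funext fun i => ?_⟩
  have e4 := sub_eq_zero.1 (norm_eq_zero.1 (pow_eq_zero_iff two_ne_zero |>.1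
    (e3 i (Finset.mem_univ _))))
  change Y⁻¹ • k * y i = x i
  rw [smul_mul_assoc, ← e4, inv_smul_smul₀ Y0.ne']

theorem proj_onto (hA : ∀ x : A, x * star x = algebraMap ℝ A (‖x‖ ^ 2)) {n : ℕ}
    (p : Projectivization A (Fin (n + 2) → A)) : ∃ s ∈ Icc 0 (π / 2), ∃ w : Fin (n + 1) → A,
      ∑ i, ‖w i‖ ^ 2 = 1 ∧ ∃ hx : (Fin.cons (algebraMap ℝ A (cos s)) (sin s • w) :
        Fin (n + 2) → A) ≠ 0, Projectivization.mk A _ hx = p := by
  obtain ⟨u, c, c0, hu, h1⟩ := md_pa_norm p.rep_nonzero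
  have h2 := h1
  rw [Fin.sum_univ_succ, hu, norm_algebraMap', Real.norm_of_nonneg c0] at h2
  have t0 : 0 ≤ ∑ i : Fin (n + 1), ‖u * p.rep i.succ‖ ^ 2 :=
    Finset.sum_nonneg fun _ _ => sq_nonneg _
  have c1 : c ≤ 1 := by nlinarith
  have hcos : cos (arccos c) = c := cos_arccos (by linarith) c1
  have hsin : sin (arccos c) ^ 2 = ∑ i : Fin (n + 1), ‖u * p.rep i.succ‖ ^ 2 := by
    rw [sin_sq, hcos]
    linarith
  have hw : ∃ w : Fin (n + 1) → A, ∑ i, ‖w i‖ ^ 2 = 1 ∧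
      sin (arccos c) • w = fun i => u * p.rep i.succ := by
    rcases eq_or_ne (sin (arccos c)) 0 with h0 | h0
    · refine ⟨Pi.single 0 1, by simp [Fin.sum_univ_succ], funext fun i => ?_⟩
      rw [h0, zero_pow two_ne_zero, eq_comm,
        Finset.sum_eq_zero_iff_of_nonneg fun _ _ => sq_nonneg _] at hsin
      rw [h0, zero_smul, norm_eq_zero.1 (pow_eq_zero_iff two_ne_zero |>.1
        (hsin i (Finset.mem_univ _)))]
      rfl
    · refine ⟨(sin (arccos c))⁻¹ • fun i => u * p.rep i.succ, ?_, smul_inv_smul₀ h0 _⟩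
      simp only [Pi.smul_apply, norm_smul, mul_pow, ← Finset.mul_sum, ← hsin, Real.norm_eq_abs,
        sq_abs]
      field_simp
  obtain ⟨w, w1, w2⟩ := hw
  have e : (Fin.cons (algebraMap ℝ A (cos (arccos c))) (sin (arccos c) • w) : Fin (n + 2) → A) =
      u • p.rep := by
    rw [w2, hcos, ← hu]
    funext i
    refine Fin.cases rfl (fun j => rfl) i
  have ne : u • p.rep ≠ 0 := by
    intro h0
    have : ∀ i, u * p.rep i = 0 := fun i => congrFun h0 i
    simp [this] at h1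
  refine ⟨arccos c, ⟨arccos_nonneg c, arccos_le_pi_div_two.2 c0⟩, w, w1, e ▸ ne, ?_⟩
  conv_rhs => rw [← mk_rep p]
  rw [mk_eq_mk_iff']
  exact ⟨u, e.symm⟩

end Vale.Agent.P231
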